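import Vale.Agent.P182.H668.Bricks

/-!
# Bricks from homomorphisms into a fixed bundle

`brick_of_max` : an orthogonal bundle `A` with `Hom (A, M) = k f`, `f f^* ≠ 0`, such that every
nonzero subobject of `A` has a nonzero map to `M`, is a brick.
`brick_quo` : the image of the unique map `D → S` is a brick.
-/

namespace Vale.Agent.P182.H120

open LinearMap Submodule Module Vale.Agent.P182 Vale.Agent.P182.H430 Vale.Agent.P182.H578
  Vale.Agent.P182.H668

universe u

variable {k F P : Type*} [Field k] [Field F] [Algebra k F] {C : Curve k F P}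
variable {E : Type u} [AddCommGroup E] [Module F E] [Module k E] [IsScalarTower k F E]
  [FiniteDimensional F E] {A : Bun C E} {B : LinearMap.BilinForm F E}
variable {W : Type u} [AddCommGroup W] [Module F W] [Module k W] [IsScalarTower k F W]
  [FiniteDimensional F W] {M : Bun C W} {q : LinearMap.BilinForm F W}

section adj2

omit [Module k E] [IsScalarTower k F E] [Module k W] [IsScalarTower k F W] [FiniteDimensional F W]

/-- adjoints of maps into a space with a form exist -/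
theorem exists_adj2 (hnd : ∀ x, (∀ y, B x y = 0) → x = 0) (q : W →ₗ[F] W →ₗ[F] F)
    (T : E →ₗ[F] W) : ∃ T' : W →ₗ[F] E, ∀ w e, B (T' w) e = q w (T e) := by
  have hinj : Function.Injective B := by
    rw [injective_iff_map_eq_zero]
    intro x hx
    exact hnd x fun y => by rw [hx]; rfl
  have hd : Module.finrank F E = Module.finrank F (E →ₗ[F] F) :=
    (Subspace.dual_finrank_eq (K := F) (V := E)).symm
  let e : E ≃ₗ[F] (E →ₗ[F] F) := LinearEquiv.ofInjectiveOfFinrankEq B hinj hd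
  have he : ∀ x, e x = B x := fun x => rfl
  refine ⟨e.symm.toLinearMap ∘ₗ (LinearMap.lcomp F F T) ∘ₗ q, fun x y => ?_⟩
  rw [← he]
  simp only [LinearMap.comp_apply, LinearEquiv.coe_coe, LinearEquiv.apply_symm_apply]
  rfl

omit [FiniteDimensional F E] in
theorem ext_form2 (hnd : ∀ x, (∀ y, B x y = 0) → x = 0) {T T' : W →ₗ[F] E}
    (h : ∀ x y, B (T x) y = B (T' x) y) : T = T' := by
  apply LinearMap.ext
  intro x
  have : T x - T' x = 0 := by
    apply hnd
    intro y
    rw [map_sub, LinearMap.sub_apply, h, sub_self]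
  exact sub_eq_zero.1 this

end adj2

omit [Module k E] [IsScalarTower k F E] [FiniteDimensional F E] [FiniteDimensional F W] in
theorem ksmul (c : k) (T : E →ₗ[F] W) (x : E) : (c • T) x = algebraMap k F c • T x := by
  rw [LinearMap.smul_apply, algebraMap_smul]

/-- membership in `H⁰` of homomorphisms, all levels -/
theorem mem_hz_hom {f : E →ₗ[F] W} :
    f ∈ HZ (A.hom M).lat ↔ ∀ p b x, x ∈ (A.ch p).L b → f x ∈ (M.ch p).L b := by
  rw [mem_HZ]
  exact forall_congr' fun p => Bun.mem_hom_lat A M p f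

/-- **`E` IS A BRICK.** -/
theorem brick_of_max (hs : Orth A B) (hq : ∀ v, (∀ w, q w v = 0) → v = 0) {f : E →ₗ[F] W}
    (h1 : ∀ g ∈ HZ (A.hom M).lat, ∃ c : k, g = c • f) (hf : f ∈ HZ (A.hom M).lat)
    {fs : W →ₗ[F] E} (hfs : ∀ w e, B (fs w) e = q w (f e)) (h2 : f ∘ₗ fs ≠ 0)
    (hmax : ∀ S : Submodule F E, S ≠ ⊥ → ∃ ψ ∈ HZ ((A.sub S).hom M).lat, ψ ≠ 0) :
    Brick A := by
  intro h hh
  -- composites
  have hcomp : ∀ T ∈ HZ (A.hom A).lat, f ∘ₗ T ∈ HZ (A.hom M).lat := by
    intro T hT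
    rw [mem_hz_hom] at hT hf ⊢
    exact fun p b x hx => hf p b _ (hT p b x hx)
  obtain ⟨h', hh'⟩ := exists_adj hs.nd h
  have hh'm : h' ∈ HZ (A.hom A).lat := by
    rw [mem_HZ] at hh ⊢
    intro p
    exact hs.dual.adj_mem hh' (hh p)
  obtain ⟨c, hc⟩ := h1 _ (hcomp h hh)
  obtain ⟨c', hc'⟩ := h1 _ (hcomp h' hh'm)
  have hc1 : ∀ x, f (h x) = algebraMap k F c • f x := fun x => by
    have := LinearMap.congr_fun hc x
    rwa [ksmul] at this
  have hc2 : ∀ x, f (h' x) = algebraMap k F c' • f x := fun x => by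
    have := LinearMap.congr_fun hc' x
    rwa [ksmul] at this
  -- the two eigenvalues agree
  obtain ⟨w, hw⟩ : ∃ w, f (fs w) ≠ 0 := by
    by_contra hcon
    push Not at hcon
    exact h2 (LinearMap.ext hcon)
  have hcc : algebraMap k F c = algebraMap k F c' := by
    by_contra hne
    apply hw
    apply hq
    intro w'
    have e1 : q w' (f (h (fs w))) = q w (f (h' (fs w'))) := by
      rw [← hfs, ← hfs, ← hh', hs.symm]
    have e2 : q w (f (fs w')) = q w' (f (fs w)) := by
      rw [← hfs, ← hfs, hs.symm]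
    rw [hc1, hc2, map_smul, map_smul, e2, smul_eq_mul, smul_eq_mul] at e1
    have e3 : (algebraMap k F c - algebraMap k F c') * q w' (f (fs w)) = 0 := by
      linear_combination e1
    exact (mul_eq_zero.1 e3).resolve_left (sub_ne_zero.2 hne)
  refine ⟨c, ?_⟩
  -- the difference
  by_contra hne
  let g : E →ₗ[F] E := h - c • (LinearMap.id : E →ₗ[F] E)
  have hg : ∀ x, g x = h x - algebraMap k F c • x := fun x => by
    show h x - (c • (LinearMap.id : E →ₗ[F] E)) x = _
    rw [ksmul, LinearMap.id_apply]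
  have hgm : g ∈ HZ (A.hom A).lat :=
    Submodule.sub_mem _ hh (Submodule.smul_mem _ c (id_mem A))
  have hg0 : g ≠ 0 := fun h0 => hne (sub_eq_zero.1 h0)
  have hS : LinearMap.range g ≠ ⊥ := fun h0 => hg0 (LinearMap.range_eq_bot.1 h0)
  obtain ⟨ψ, hψ, hψ0⟩ := hmax _ hS
  obtain ⟨Ψ, hΨ⟩ := LinearMap.exists_extend ψ
  have hΨ' : ∀ x : LinearMap.range g, Ψ x = ψ x := fun x => LinearMap.congr_fun hΨ x
  have h3 : Ψ ∘ₗ g ∈ HZ (A.hom M).lat := by
    rw [mem_hz_hom] at hψ hgm ⊢
    intro p b x hx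
    have h4 := hψ p b ⟨g x, LinearMap.mem_range_self g x⟩ (hgm p b x hx)
    rw [← hΨ'] at h4
    exact h4
  obtain ⟨l, hl⟩ := h1 _ h3
  have hl1 : ∀ x, Ψ (g x) = algebraMap k F l • f x := fun x => by
    have := LinearMap.congr_fun hl x
    rwa [ksmul] at this
  have hl0 : algebraMap k F l ≠ 0 := by
    intro h0
    apply hψ0
    apply LinearMap.ext
    rintro ⟨_, x, rfl⟩
    rw [← hΨ']
    show Ψ (g x) = 0
    rw [hl1, h0, zero_smul]
  obtain ⟨Ψs, hΨs⟩ := exists_adj2 hs.nd q Ψ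
  obtain ⟨g', hg'⟩ := exists_adj hs.nd g
  -- `g' = h' - c`
  have hg'' : ∀ x, g' x = h' x - algebraMap k F c • x := by
    intro x
    have : g' x - (h' x - algebraMap k F c • x) = 0 := by
      apply hs.nd
      intro y
      rw [map_sub, map_sub, map_smul, LinearMap.sub_apply, LinearMap.sub_apply,
        LinearMap.smul_apply, hg', hh', hg, map_sub, map_smul]
      ring
    exact sub_eq_zero.1 this
  apply hw
  have e5 : ∀ v, algebraMap k F l • fs v = g' (Ψs v) := by
    intro v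
    have : algebraMap k F l • fs v - g' (Ψs v) = 0 := by
      apply hs.nd
      intro y
      rw [map_sub, map_smul, LinearMap.sub_apply, LinearMap.smul_apply, hfs, hg', hΨs, hl1,
        map_smul, sub_self]
    exact sub_eq_zero.1 this
  have e6 : f (algebraMap k F l • fs w) = 0 := by
    rw [e5, hg'', map_sub, map_smul, hc2, hcc, sub_self]
  rw [map_smul] at e6
  exact (smul_eq_zero.1 e6).resolve_left hl0

omit [Module k E] [IsScalarTower k F E] [FiniteDimensional F E] [Module k W]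
  [IsScalarTower k F W] [FiniteDimensional F W] in
/-- `f^* f` is symmetric -/
theorem comp_mem_adj (hB : ∀ x y, B x y = B y x) (hq : ∀ v w, q v w = q w v) {f : E →ₗ[F] W}
    {fs : W →ₗ[F] E} (hfs : ∀ w e, B (fs w) e = q w (f e)) : fs ∘ₗ f ∈ adj B 1 := by
  intro x y
  rw [LinearMap.comp_apply, LinearMap.comp_apply, hfs, hB x, hfs, hq, one_mul]

omit [Module k E] [IsScalarTower k F E] [FiniteDimensional F E] [Module k W]
  [IsScalarTower k F W] [FiniteDimensional F W] in
/-- `f^* c f` is skew for a skew `c` -/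
theorem comp_mem_adj_neg (hB : ∀ x y, B x y = B y x) (hq : ∀ v w, q v w = - q w v)
    {f : E →ₗ[F] W} {fs : W →ₗ[F] E} (hfs : ∀ w e, B (fs w) e = q w (f e)) :
    fs ∘ₗ f ∈ adj B (-1) := by
  intro x y
  rw [LinearMap.comp_apply, LinearMap.comp_apply, hfs, hB x, hfs, hq]
  ring

/-- a form on `M` with values in the canonical bundle -/
def KForm (κ : P → ℤ) (M : Bun C W) (q : W →ₗ[F] W →ₗ[F] F) : Prop :=
  ∀ p a b v w, v ∈ (M.ch p).L a → w ∈ (M.ch p).L b →
    q v w ∈ (C.pl p).M (C.per p) (a + b - κ p)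

omit [IsScalarTower k F E] [FiniteDimensional F E] [IsScalarTower k F W]
  [FiniteDimensional F W] in
/-- the levels of the adjoint -/
theorem adj2_level {κ : P → ℤ} (hd : SelfDual A B) (hq : KForm κ M q) {f : E →ₗ[F] W}
    (hf : ∀ p b x, x ∈ (A.ch p).L b → f x ∈ (M.ch p).L b) {fs : W →ₗ[F] E}
    (hfs : ∀ w e, B (fs w) e = q w (f e)) (p : P) (a : ℤ) (w : W) (hw : w ∈ (M.ch p).L a) :
    fs w ∈ (A.ch p).L (a - κ p) := by
  rw [hd]
  intro b y hy
  rw [hfs]
  have := hq p a b w (f y) hw (hf p b y hy)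
  rwa [show a - κ p + b = a + b - κ p by ring]

/-- `f^* f` is a Higgs field -/
theorem comp_higgs {κ : P → ℤ} (hd : SelfDual A B) (hq : KForm κ M q) {f : E →ₗ[F] W}
    (hf : f ∈ HZ (A.hom M).lat) {fs : W →ₗ[F] E} (hfs : ∀ w e, B (fs w) e = q w (f e)) :
    Higgs κ A (fs ∘ₗ f) := by
  rw [mem_hz_hom] at hf
  refine mem_HZ.2 fun p b x hx => ?_
  have := adj2_level hd hq hf hfs p b _ (hf p b x hx)
  rwa [sub_eq_add_neg] at this

/-- a brick with a nonzero Higgs field -/
theorem Brick.chi_nonpos (hb : Brick A) (hE : 0 < finrank F E) {κ : P → ℤ}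
    (hκ : Dualizing C κ) {X : E →ₗ[F] E} (hX : Higgs κ A X) (hX0 : X ≠ 0) :
    chi (A.hom A).lat ≤ 0 := by
  have h1 : h0 ((A.hom A).tw κ) = h1 (A.hom A).lat := ((DPair.hom A A).serre hκ).2.1
  have h2 := hb.h0_eq hE
  have h3 : 0 < h0 ((A.hom A).tw κ) := by
    have hfin : FinCoh ((A.hom A).tw κ) := by
      rw [(A.hom A).tw_eq κ hκ.fin]
      exact ((A.hom A).twist κ hκ.fin).finCoh
    have := hfin.fin0
    unfold h0
    refine Module.finrank_pos_iff_exists_ne_zero.2 ⟨⟨X, hX⟩, fun h => hX0 (congrArg Subtype.val h)⟩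
  unfold chi
  omega

section quo

variable (x : E →ₗ[F] W)

/-- the injection of the image -/
def im (x : E →ₗ[F] W) : (E ⧸ LinearMap.ker x) →ₗ[F] W := (LinearMap.ker x).liftQ x le_rfl

omit [Module k E] [IsScalarTower k F E] [FiniteDimensional F E] [Module k W]
  [IsScalarTower k F W] [FiniteDimensional F W] in
@[simp] theorem im_mkQ (x : E →ₗ[F] W) (e : E) : im x ((LinearMap.ker x).mkQ e) = x e := rfl

omit [Module k E] [IsScalarTower k F E] [FiniteDimensional F E] [Module k W]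
  [IsScalarTower k F W] [FiniteDimensional F W] in
theorem im_injective (x : E →ₗ[F] W) : Function.Injective (im x) := by
  rw [← LinearMap.ker_eq_bot]
  exact Submodule.ker_liftQ_eq_bot' _ _ rfl

/-- **`B` IS A BRICK**: the image of the unique map is a brick. -/
theorem brick_quo {x : E →ₗ[F] W} (hx : x ∈ HZ (A.hom M).lat)
    (h1 : ∀ g ∈ HZ (A.hom M).lat, ∃ c : k, g = c • x) : Brick (A.quo (LinearMap.ker x)) := by
  intro b hb
  have h2 : im x ∘ₗ b ∘ₗ (LinearMap.ker x).mkQ ∈ HZ (A.hom M).lat := by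
    rw [mem_hz_hom] at hx hb ⊢
    intro p a e he
    obtain ⟨e', he', hee⟩ := hb p a _ ((A.ch p).mkQ_mem_quo _ he)
    have hee' : (LinearMap.ker x).mkQ e' = b ((LinearMap.ker x).mkQ e) := hee
    show im x (b ((LinearMap.ker x).mkQ e)) ∈ _
    rw [← hee', im_mkQ]
    exact hx p a e' he'
  obtain ⟨c, hc⟩ := h1 _ h2
  refine ⟨c, ?_⟩
  apply LinearMap.ext
  intro z
  obtain ⟨e, rfl⟩ := (LinearMap.ker x).mkQ_surjective z
  apply im_injective x
  have h3 : im x (b ((LinearMap.ker x).mkQ e)) = (c • x) e := LinearMap.congr_fun hc e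
  rw [h3, ksmul, ksmul, LinearMap.id_apply, map_smul, im_mkQ]

end quo

section xi

variable {x : E →ₗ[F] W} {y : W →ₗ[F] E}

/-- the Higgs field of the image -/
def xi (x : E →ₗ[F] W) (y : W →ₗ[F] E) : (E ⧸ LinearMap.ker x) →ₗ[F] (E ⧸ LinearMap.ker x) :=
  (LinearMap.ker x).mkQ ∘ₗ y ∘ₗ im x

omit [Module k E] [IsScalarTower k F E] [FiniteDimensional F E] [Module k W]
  [IsScalarTower k F W] [FiniteDimensional F W] in
theorem xi_mkQ (x : E →ₗ[F] W) (y : W →ₗ[F] E) (e : E) :
    xi x y ((LinearMap.ker x).mkQ e) = (LinearMap.ker x).mkQ (y (x e)) := rfl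

omit [Module k E] [IsScalarTower k F E] [FiniteDimensional F E] [Module k W]
  [IsScalarTower k F W] [FiniteDimensional F W] in
/-- if `ξ = 0` then `x^* c x` has square zero -/
theorem sq_of_xi (h : xi x y = 0) : (y ∘ₗ x) ∘ₗ (y ∘ₗ x) = 0 := by
  apply LinearMap.ext
  intro e
  have h1 : (LinearMap.ker x).mkQ (y (x e)) = 0 := by
    rw [← xi_mkQ, h, LinearMap.zero_apply]
  have h2 : y (x e) ∈ LinearMap.ker x := by simpa using h1
  show y (x (y (x e))) = 0
  rw [LinearMap.mem_ker.1 h2, map_zero]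

omit [Module k W] [IsScalarTower k F W] [FiniteDimensional F W] in
/-- `ξ` is a Higgs field -/
theorem xi_higgs {κ : P → ℤ} (h : Higgs κ A (y ∘ₗ x)) :
    Higgs κ (A.quo (LinearMap.ker x)) (xi x y) := by
  refine mem_HZ.2 fun p => ?_
  rintro b _ ⟨e, he, rfl⟩
  exact ⟨y (x e), mem_HZ.1 h p b e he, rfl⟩

end xi

end Vale.Agent.P182.H120
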