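import Vale.Agent.P182.H388.Col

/-!
# Existence of the collapse: the levels which are seen by `M`, `S` or `S'`
-/

namespace Vale.Agent.P182.H120

open LinearMap Submodule Module Vale.Agent.P182 Vale.Agent.P182.H430 Vale.Agent.P182.H578
  Vale.Agent.P182.H668

section arith

/-- enumeration of the elements of a set of integers which is symmetric under `a ↦ 1 - a` and
unbounded above -/
theorem exists_enum_aux {T : Set ℤ} (hsym : ∀ a ∈ T, 1 - a ∈ T)
    (hinf : {n : ℕ | (n : ℤ) + 1 ∈ T}.Infinite) :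
    ∃ φ : ℤ → ℤ, StrictMono φ ∧ (∀ i, φ i ∈ T) ∧ (∀ a ∈ T, ∃ i, φ i = a) ∧
      ∀ i, φ (1 - i) = 1 - φ i := by
  classical
  set S : ℕ → Prop := fun n => (n : ℤ) + 1 ∈ T with hS
  have hinf' : (Set.ofPred S).Infinite := hinf
  let g : ℕ → ℤ := fun n => (Nat.nth S n : ℤ) + 1
  have hg1 : ∀ n, g n ∈ T := fun n => Nat.nth_mem_of_infinite hinf' n
  have hg2 : ∀ a b, a < b → g a < g b := by
    intro a b hab
    have := Nat.nth_strictMono hinf' hab
    show (Nat.nth S a : ℤ) + 1 < (Nat.nth S b : ℤ) + 1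
    omega
  have hg3 : ∀ n, 1 ≤ g n := fun n => by
    show 1 ≤ (Nat.nth S n : ℤ) + 1
    omega
  have hg4 : ∀ a ∈ T, 1 ≤ a → ∃ n, g n = a := by
    intro a ha h1
    have h2 : S (a - 1).toNat := by
      show (((a - 1).toNat : ℕ) : ℤ) + 1 ∈ T
      rw [Int.toNat_of_nonneg (by omega), sub_add_cancel]
      exact ha
    refine ⟨Nat.count S (a - 1).toNat, ?_⟩
    show (Nat.nth S (Nat.count S (a - 1).toNat) : ℤ) + 1 = a
    rw [Nat.nth_count h2, Int.toNat_of_nonneg (by omega), sub_add_cancel]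
  refine ⟨fun i => if 1 ≤ i then g (i - 1).toNat else 1 - g (-i).toNat, ?_, ?_, ?_, ?_⟩
  · intro i j hij
    show (if 1 ≤ i then g (i - 1).toNat else 1 - g (-i).toNat) <
      (if 1 ≤ j then g (j - 1).toNat else 1 - g (-j).toNat)
    by_cases hi : 1 ≤ i
    · rw [if_pos hi, if_pos (by omega)]
      exact hg2 _ _ (by omega)
    · rw [if_neg hi]
      by_cases hj : 1 ≤ j
      · rw [if_pos hj]
        have h1 := hg3 (-i).toNat
        have h2 := hg3 (j - 1).toNat
        omega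
      · rw [if_neg hj]
        have h1 := hg2 (-j).toNat (-i).toNat (by omega)
        omega
  · intro i
    show (if 1 ≤ i then g (i - 1).toNat else 1 - g (-i).toNat) ∈ T
    by_cases hi : 1 ≤ i
    · rw [if_pos hi]
      exact hg1 _
    · rw [if_neg hi]
      exact hsym _ (hg1 _)
  · intro a ha
    by_cases h1 : 1 ≤ a
    · obtain ⟨n, hn⟩ := hg4 a ha h1
      refine ⟨(n : ℤ) + 1, ?_⟩
      show (if 1 ≤ (n : ℤ) + 1 then g ((n : ℤ) + 1 - 1).toNat else _) = a
      rw [if_pos (by omega), show ((n : ℤ) + 1 - 1).toNat = n by omega]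
      exact hn
    · obtain ⟨n, hn⟩ := hg4 (1 - a) (hsym a ha) (by omega)
      refine ⟨-(n : ℤ), ?_⟩
      show (if 1 ≤ -(n : ℤ) then _ else 1 - g (-(-(n : ℤ))).toNat) = a
      rw [if_neg (by omega), show (-(-(n : ℤ))).toNat = n by omega, hn]
      omega
  · intro i
    show (if 1 ≤ 1 - i then g (1 - i - 1).toNat else 1 - g (-(1 - i)).toNat) =
      1 - (if 1 ≤ i then g (i - 1).toNat else 1 - g (-i).toNat)
    by_cases hi : 1 ≤ i
    · rw [if_pos hi, if_neg (by omega), show (-(1 - i)).toNat = (i - 1).toNat by omega]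
    · rw [if_neg hi, if_pos (by omega), show (1 - i - 1).toNat = (-i).toNat by omega]
      omega

/-- **Enumeration of a periodic symmetric set of integers.** -/
theorem exists_enum {d : ℕ} (hd : 0 < d) {T : Set ℤ} (hne : T.Nonempty)
    (hper : ∀ a, a ∈ T ↔ a + d ∈ T) (hsym : ∀ a ∈ T, 1 - a ∈ T) :
    ∃ (m : ℕ) (φ : ℤ → ℤ), 0 < m ∧ StrictMono φ ∧ (∀ i, φ i ∈ T) ∧ (∀ a ∈ T, ∃ i, φ i = a) ∧
      (∀ i, φ (i + m) = φ i + d) ∧ ∀ i, φ (1 - i) = 1 - φ i := by
  have hmul : ∀ (n : ℕ) a, a ∈ T → a + d * n ∈ T := by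
    intro n
    induction n with
    | zero => intro a ha; simpa using ha
    | succ n ih =>
      intro a ha
      have h1 := (hper _).1 (ih a ha)
      push_cast
      rw [mul_add, mul_one, ← add_assoc]
      exact h1
  have hinf : {n : ℕ | (n : ℤ) + 1 ∈ T}.Infinite := by
    rw [Set.infinite_iff_exists_gt]
    intro N
    obtain ⟨a, ha⟩ := hne
    have hn : (N : ℤ) + 1 - a ≤ ((N : ℤ) + 1 - a).toNat := Int.self_le_toNat _
    have h1 := hmul (((N : ℤ) + 1 - a).toNat + 1) a ha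
    have h2 : (N : ℤ) + 1 < a + d * (((N : ℤ) + 1 - a).toNat + 1 : ℕ) := by
      have h3 : ((((N : ℤ) + 1 - a).toNat + 1 : ℕ) : ℤ) ≤
          d * (((N : ℤ) + 1 - a).toNat + 1 : ℕ) := by
        have h4 : (1 : ℤ) ≤ d := by exact_mod_cast hd
        nlinarith [Int.natCast_nonneg (((N : ℤ) + 1 - a).toNat + 1)]
      push_cast at h3 ⊢
      omega
    refine ⟨(a + d * (((N : ℤ) + 1 - a).toNat + 1 : ℕ) - 1).toNat, ?_, ?_⟩
    · show (((a + d * (((N : ℤ) + 1 - a).toNat + 1 : ℕ) - 1).toNat : ℕ) : ℤ) + 1 ∈ T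
      rw [Int.toNat_of_nonneg (by omega), sub_add_cancel]
      exact h1
    · omega
  obtain ⟨φ, hm, hφ, hs, hr⟩ := exists_enum_aux hsym hinf
  choose ψ hψ using fun i => hs (φ i + d) ((hper _).1 (hφ i))
  have hψm : StrictMono ψ := by
    intro i j hij
    rw [← hm.lt_iff_lt, hψ, hψ]
    have := hm hij
    omega
  have hψs : ∀ j, ∃ i, ψ i = j := by
    intro j
    have h1 : φ j - d ∈ T := by
      rw [hper, sub_add_cancel]
      exact hφ j
    obtain ⟨i, hi⟩ := hs _ h1
    refine ⟨i, hm.injective ?_⟩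
    rw [hψ, hi, sub_add_cancel]
  have hstep : ∀ i, ψ (i + 1) = ψ i + 1 := by
    intro i
    have h1 := hψm (show i < i + 1 by omega)
    obtain ⟨j, hj⟩ := hψs (ψ i + 1)
    have h2 : i < j := by
      rw [← hψm.lt_iff_lt, hj]
      omega
    have h3 := hψm.monotone (show i + 1 ≤ j by omega)
    omega
  have hall : ∀ i, ψ i = i + ψ 0 := by
    intro i
    induction i using Int.induction_on with
    | zero => simp
    | succ i ih =>
      rw [hstep, ih]
      ring
    | pred i ih =>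
      have h1 := hstep (-(i : ℤ) - 1)
      rw [sub_add_cancel, ih] at h1
      omega
  have hpos : 0 < ψ 0 := by
    rw [← hm.lt_iff_lt, hψ]
    have : (0 : ℤ) < d := by exact_mod_cast hd
    omega
  refine ⟨(ψ 0).toNat, φ, by omega, hm, hφ, hs, fun i => ?_, hr⟩
  rw [Int.toNat_of_nonneg hpos.le, ← hall, hψ]

end arith

variable {k F P : Type*} [Field k] [Field F] [Algebra k F] {C : Curve k F P}
variable {W : Type*} [AddCommGroup W] [Module F W] [Module k W]
variable {U : Type*} [AddCommGroup U] [Module F U] [Module k U]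
variable {U' : Type*} [AddCommGroup U'] [Module F U'] [Module k U']

theorem not_jump {M : Bun C W} {p : P} {a : ℤ} (h : ¬ Jump M p a) :
    (M.ch p).L a ≤ (M.ch p).L (a + 1) := by
  intro x hx
  by_contra hc
  exact h ⟨x, hx, hc⟩

theorem jump_add (M : Bun C W) (p : P) (a : ℤ) : Jump M p a ↔ Jump M p (a + C.per p) := by
  have hu := (C.pl p).unif_ne
  have h1 : ∀ b x, (C.pl p).unif • x ∈ (M.ch p).L (b + C.per p) ↔ x ∈ (M.ch p).L b := by
    intro b x
    rw [(M.ch p).smul_iff _ hu, (C.pl p).ord_unif, mul_one, add_sub_cancel_right]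
  constructor
  · rintro ⟨w, hw1, hw2⟩
    refine ⟨(C.pl p).unif • w, (h1 a w).2 hw1, fun hc => hw2 ?_⟩
    rw [← h1]
    convert hc using 2
    ring
  · rintro ⟨w, hw1, hw2⟩
    have e : (C.pl p).unif • ((C.pl p).unif⁻¹ • w) = w := smul_inv_smul₀ hu w
    refine ⟨(C.pl p).unif⁻¹ • w, ?_, fun hc => hw2 ?_⟩
    · rw [← h1, e]
      exact hw1
    · rw [← h1, e] at hc
      convert hc using 2
      ring

theorem jump_add_mul (M : Bun C W) (p : P) (a j : ℤ) :
    Jump M p a ↔ Jump M p (a + C.per p * j) := by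
  induction j using Int.induction_on with
  | zero => simp
  | succ j ih =>
    rw [ih, jump_add]
    rw [show a + (C.per p : ℤ) * (j : ℤ) + C.per p = a + C.per p * ((j : ℤ) + 1) by ring]
  | pred j ih =>
    rw [ih, jump_add M p (a + C.per p * (-(j : ℤ) - 1))]
    rw [show a + (C.per p : ℤ) * (-(j : ℤ) - 1) + C.per p = a + C.per p * (-(j : ℤ)) by ring]

theorem exists_jump (M : Bun C W) [Nontrivial W] (p : P) : ∃ a, Jump M p a := by
  obtain ⟨x, hx⟩ := exists_ne (0 : W)
  obtain ⟨w, hw⟩ := (M.ch p).exists_level hx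
  exact ⟨w, x, (hw w).2 le_rfl, fun h => by
    have := (hw _).1 h
    omega⟩

/-- duality for the jumps -/
theorem jump_dual {κ : P → ℤ} (hκ : Dualizing C κ) {S : Bun C U} {S' : Bun C U'}
    {q : U →ₗ[F] U' →ₗ[F] F} (h : DPairV κ S S' q) {p : P} {a : ℤ} (hj : Jump S' p (a - 1)) :
    Jump S p (-a) := by
  by_contra hc
  obtain ⟨y, hy1, hy2⟩ := hj
  rw [sub_add_cancel] at hy2
  apply hy2
  rw [h.mem]
  intro b x hx
  have h1 := (h.mem p _ y).1 hy1
  have hp : (0 : ℤ) < C.per p := by exact_mod_cast C.per_pos p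
  by_cases hd : (C.per p : ℤ) ∣ b + a
  · obtain ⟨j, hj⟩ := hd
    have hb : b = -a + C.per p * j := by linarith
    have h2 : ¬ Jump S p b := by
      rw [hb, ← jump_add_mul]
      exact hc
    have h3 := h1 (b + 1) x (not_jump h2 hx)
    rwa [show b + 1 + (a - 1) - κ p = b + a - κ p by ring] at h3
  · have h3 := h1 b x hx
    rcases h3 with h3 | h3
    · exact Or.inl h3
    · right
      rcases (Int.lt_or_eq_of_le h3) with h4 | h4
      · omega
      · exfalso
        apply hd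
        have h5 := hκ.cong p
        have h6 := Int.emod_add_mul_ediv (κ p) (C.per p)
        rw [h5] at h6
        refine ⟨(C.pl p).ord (q x y) + κ p / C.per p + 1, ?_⟩
        rw [mul_add, mul_add, mul_one]
        linarith

/-- a bundle without jumps inside the blocks is flat -/
theorem flat_of (c : Col C) (N : Bun C W)
    (hN : ∀ p i a, c.φ p i < a → a < c.φ p (i + 1) → ¬ Jump N p (a - 1)) : c.Flat N := by
  intro p i a ha ha'
  obtain ⟨n, rfl⟩ := Int.le.dest ha
  clear ha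
  induction n with
  | zero => simp
  | succ n ih =>
    push_cast at ha' ⊢
    refine (ih (by omega)).trans ?_
    have h7 := hN p i (c.φ p i + ((n : ℤ) + 1)) (by omega) ha'
    have h8 := not_jump h7
    rwa [show c.φ p i + ((n : ℤ) + 1) - 1 = c.φ p i + n by ring,
      show c.φ p i + (n : ℤ) + 1 = c.φ p i + ((n : ℤ) + 1) by ring] at h8

/-- jumps survive -/
theorem jump_bun (c : Col C) (N : Bun C W) {p : P} {i : ℤ}
    (h : Jump N p (c.φ p (i + 1) - 1)) : Jump (c.bun N) p i := by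
  obtain ⟨w, hw1, hw2⟩ := h
  rw [sub_add_cancel] at hw2
  refine ⟨w, (N.ch p).anti _ _ ?_ hw1, hw2⟩
  have := c.mono p (show i < i + 1 by omega)
  omega

variable [FiniteDimensional F W] [IsScalarTower k F U] [FiniteDimensional F U]
  [FiniteDimensional F U']

/-- **Existence of the collapse** -/
theorem exists_col {κ : P → ℤ} (hκ : Dualizing C κ) [Nontrivial W] {M : Bun C W}
    {qM : LinearMap.BilinForm F W} (hM : OrthV κ M qM) {S : Bun C U} {S' : Bun C U'}
    {q : U →ₗ[F] U' →ₗ[F] F} (hq : DPairV κ S S' q) :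
    ∃ c : Col C, c.Flat M ∧ c.Flat S ∧ c.Flat S' ∧
      (∀ p i, Jump M p (c.φ p i - 1) ∨ Jump S p (c.φ p i - 1) ∨ Jump S' p (c.φ p i - 1)) ∧
      Seen (c.bun M) (c.bun S) (c.bun S') := by
  have key : ∀ p, ∃ (m : ℕ) (φ : ℤ → ℤ), 0 < m ∧ StrictMono φ ∧
      (∀ i, Jump M p (φ i - 1) ∨ Jump S p (φ i - 1) ∨ Jump S' p (φ i - 1)) ∧
      (∀ a, (Jump M p (a - 1) ∨ Jump S p (a - 1) ∨ Jump S' p (a - 1)) → ∃ i, φ i = a) ∧
      (∀ i, φ (i + m) = φ i + C.per p) ∧ ∀ i, φ (1 - i) = 1 - φ i := by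
    intro p
    refine exists_enum (d := C.per p) (T := {a | Jump M p (a - 1) ∨ Jump S p (a - 1) ∨
      Jump S' p (a - 1)}) (C.per_pos p) ?_ ?_ ?_
    · obtain ⟨a, ha⟩ := exists_jump M p
      refine ⟨a + 1, Or.inl ?_⟩
      rwa [add_sub_cancel_right]
    · intro a
      show (Jump M p (a - 1) ∨ Jump S p (a - 1) ∨ Jump S' p (a - 1)) ↔
        (Jump M p (a + C.per p - 1) ∨ Jump S p (a + C.per p - 1) ∨ Jump S' p (a + C.per p - 1))
      rw [jump_add M, jump_add S, jump_add S', show a - 1 + (C.per p : ℤ) = a + C.per p - 1 by ring]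
    · intro a ha
      show (Jump M p (1 - a - 1) ∨ Jump S p (1 - a - 1) ∨ Jump S' p (1 - a - 1))
      rw [show 1 - a - 1 = -a by ring]
      rcases ha with ha | ha | ha
      · exact Or.inl (jump_dual hκ hM.pair ha)
      · exact Or.inr (Or.inr (jump_dual hκ hq.symm ha))
      · exact Or.inr (Or.inl (jump_dual hκ hq ha))
  choose m φ h1 h2 h3 h4 h5 h6 using key
  let c : Col C := ⟨m, h1, φ, h2, h5, h6⟩
  have hno : ∀ p i a, φ p i < a → a < φ p (i + 1) →
      ¬ (Jump M p (a - 1) ∨ Jump S p (a - 1) ∨ Jump S' p (a - 1)) := by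
    intro p i a ha ha' hj
    obtain ⟨j, rfl⟩ := h4 p a hj
    rw [(h2 p).lt_iff_lt] at ha ha'
    omega
  refine ⟨c, flat_of c M fun p i a ha ha' hj => hno p i a ha ha' (Or.inl hj),
    flat_of c S fun p i a ha ha' hj => hno p i a ha ha' (Or.inr (Or.inl hj)),
    flat_of c S' fun p i a ha ha' hj => hno p i a ha ha' (Or.inr (Or.inr hj)), h3, ?_⟩
  intro p i
  rcases h3 p (i + 1) with h | h | h
  · exact Or.inl (jump_bun c M h)
  · exact Or.inr (Or.inl (jump_bun c S h))
  · exact Or.inr (Or.inr (jump_bun c S' h))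

end Vale.Agent.P182.H120
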