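import Vale.Agent.P182.H120.Bricks1
import Vale.Agent.P182.H388.EB2

/-!
# The endgame: two orthogonal bricks

`endgame45` : the orthogonal bundles `NE`, `NP` with `Ext (NE, NP) = 0 = Ext (NP, NE)`, the unique
maps `NE → M`, `NP → S` and the skew form `c` on `S` do not exist.
-/

namespace Vale.Agent.P182.H120

open LinearMap Submodule Module Vale.Agent.P182 Vale.Agent.P182.H430 Vale.Agent.P182.H578
  Vale.Agent.P182.H668
open Vale.Agent.P182.H388 (Mor mor_iff mor_subtype mor_mkQ h0_eq_zero_iff h0_sub_eq_zero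
  chi_hom_left dg_prop seven_a' BIso rhom_EB)

universe u

variable {k F P : Type*} [Field k] [Field F] [Algebra k F] {C : Curve k F P}
variable {E : Type u} [AddCommGroup E] [Module F E] [Module k E] [IsScalarTower k F E]
  [FiniteDimensional F E] {A : Bun C E} {B : LinearMap.BilinForm F E}
variable {W : Type u} [AddCommGroup W] [Module F W] [Module k W] [IsScalarTower k F W]
  [FiniteDimensional F W] {M : Bun C W} {q : LinearMap.BilinForm F W}

theorem brick_iff : Brick A ↔ H388.Brick A := by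
  constructor
  · intro h f hf
    exact h f (mor_iff.1 hf)
  · intro h f hf
    exact h f (mor_iff.2 hf)

/-- `f f^* ≠ 0` from two vectors orthogonal to the kernel of `f` -/
theorem exists_adj_ne (hnd : ∀ x, (∀ y, B x y = 0) → x = 0)
    (hq : ∀ v, (∀ w, q v w = 0) → v = 0) {f : E →ₗ[F] W} {fs : W →ₗ[F] E}
    (hfs : ∀ w e, B (fs w) e = q w (f e))
    (hpp : ∃ u v, (∀ w, f w = 0 → B u w = 0) ∧ (∀ w, f w = 0 → B v w = 0) ∧ B u v ≠ 0) :
    f ∘ₗ fs ≠ 0 := by
  have hinj : Function.Injective q := by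
    rw [injective_iff_map_eq_zero]
    intro x hx
    exact hq x fun y => by rw [hx]; rfl
  have hsur : Function.Surjective q :=
    (LinearMap.injective_iff_surjective_of_finrank_eq_finrank
      (Subspace.dual_finrank_eq (K := F) (V := W)).symm).1 hinj
  have key : ∀ u, (∀ w, f w = 0 → B u w = 0) → ∃ m, fs m = u := by
    intro u hu
    -- the functional on the range
    obtain ⟨l, hl⟩ : ∃ l : W →ₗ[F] F, l ∘ₗ f = B u := by
      have h1 : LinearMap.ker f ≤ LinearMap.ker (B u) := fun w hw => hu w hw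
      obtain ⟨s, hs⟩ := f.rangeRestrict.exists_rightInverse_of_surjective f.range_rangeRestrict
      obtain ⟨l, hl⟩ := LinearMap.exists_extend ((B u) ∘ₗ s)
      refine ⟨l, LinearMap.ext fun e => ?_⟩
      have h2 : l (f e) = B u (s ⟨f e, LinearMap.mem_range_self f e⟩) :=
        LinearMap.congr_fun hl ⟨f e, LinearMap.mem_range_self f e⟩
      have h3 : f (s ⟨f e, LinearMap.mem_range_self f e⟩) = f e :=
        congrArg Subtype.val (LinearMap.congr_fun hs ⟨f e, LinearMap.mem_range_self f e⟩)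
      have h4 : s ⟨f e, LinearMap.mem_range_self f e⟩ - e ∈ LinearMap.ker (B u) := by
        apply h1
        rw [LinearMap.mem_ker, map_sub, h3, sub_self]
      rw [LinearMap.comp_apply, h2]
      rw [LinearMap.mem_ker, map_sub, sub_eq_zero] at h4
      exact h4
    obtain ⟨m, rfl⟩ := hsur l
    refine ⟨m, ?_⟩
    have : fs m - u = 0 := by
      apply hnd
      intro e
      rw [map_sub, LinearMap.sub_apply, hfs, ← hl, LinearMap.comp_apply, sub_self]
    exact sub_eq_zero.1 this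
  obtain ⟨u, v, hu, hv, huv⟩ := hpp
  obtain ⟨m, rfl⟩ := key u hu
  obtain ⟨m', rfl⟩ := key v hv
  intro h0
  apply huv
  rw [hfs]
  have : f (fs m') = 0 := LinearMap.congr_fun h0 m'
  rw [this, map_zero]

omit [FiniteDimensional F E] in
/-- a bundle without maps to `M` has no maps to `A`, if the subobjects of `A` have -/
theorem nohom_of_max {E' : Type u} [AddCommGroup E'] [Module F E'] [Module k E']
    [IsScalarTower k F E'] [FiniteDimensional F E'] [FiniteDimensional F E] {X : Bun C E'}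
    (hmax : ∀ G : Submodule F E, (∀ f ∈ HZ ((A.sub G).hom M).lat, f = 0) → G = ⊥)
    (hX : ∀ f ∈ HZ (X.hom M).lat, f = 0) : ∀ f ∈ HZ (X.hom A).lat, f = 0 := by
  intro f hf
  have h1 : LinearMap.range f = ⊥ := by
    apply hmax
    intro g hg
    have h2 : g ∘ₗ f.rangeRestrict ∈ HZ (X.hom M).lat := by
      rw [mem_hz_hom] at hg hf ⊢
      intro p b x hx
      exact hg p b ⟨f x, LinearMap.mem_range_self f x⟩ (hf p b x hx)
    have h3 := hX _ h2
    apply LinearMap.ext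
    rintro ⟨_, x, rfl⟩
    exact LinearMap.congr_fun h3 x
  exact LinearMap.range_eq_bot.1 h1

/-- **THE ENDGAME** -/
theorem endgame45 {κ : P → ℤ} (hκ : Dualizing C κ) (h2 : (2 : F) ≠ 0)
    (h2k : ((2 : k)⁻¹ * 2 : k) = 1)
    {EE : Type u} [AddCommGroup EE] [Module F EE] [Module k EE] [IsScalarTower k F EE]
    [FiniteDimensional F EE] {NE : Bun C EE} {BE : LinearMap.BilinForm F EE} (hE : Orth NE BE)
    {EP : Type u} [AddCommGroup EP] [Module F EP] [Module k EP] [IsScalarTower k F EP]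
    [FiniteDimensional F EP] {NP : Bun C EP} {BP : LinearMap.BilinForm F EP} (hP : Orth NP BP)
    (hq : ∀ v, (∀ w, q v w = 0) → v = 0) (hqs : ∀ v w, q v w = q w v)
    {φ : EE →ₗ[F] W} (hφ : φ ∈ HZ (NE.hom M).lat)
    (hφs : ∀ ψ ∈ HZ (NE.hom M).lat, ∃ c : k, ψ = c • φ)
    (hpp : ∃ u v, (∀ w, φ w = 0 → BE u w = 0) ∧ (∀ w, φ w = 0 → BE v w = 0) ∧ BE u v ≠ 0)
    (hmax : ∀ G : Submodule F EE, (∀ f ∈ HZ ((NE.sub G).hom M).lat, f = 0) → G = ⊥)
    {ES : Type u} [AddCommGroup ES] [Module F ES] [Module k ES] [IsScalarTower k F ES]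
    [FiniteDimensional F ES] {S : Bun C ES} {x : EP →ₗ[F] ES} (hx : x ∈ HZ (NP.hom S).lat)
    (hxs : ∀ ψ ∈ HZ (NP.hom S).lat, ∃ c : k, ψ = c • x)
    (hPM : ∀ f ∈ HZ (NP.hom M).lat, f = 0) (hES : ∀ f ∈ HZ (NE.hom S).lat, f = 0)
    (hSM : h1 (S.hom M).lat = 0) (hEP : h1 (NE.hom NP).lat = 0) (hPE : h1 (NP.hom NE).lat = 0)
    (c : ES →ₗ[F] ES →ₗ[F] F) (hc : ∀ s, c s s = 0) (hcl : KForm κ S c)
    {Ξ : EP →ₗ[F] EP} (hΞ : ∀ u v, BP (Ξ u) v = c (x u) (x v)) (hΞn : ¬ IsNilpotent Ξ)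
    (hX5 : (∃ Φ, Higgs κ NE Φ ∧ Φ ≠ 0 ∧ Φ ∈ adj BE 1) ∨ 2 ≤ h1 (NE.hom NE).lat) : False := by
  have hcs : ∀ s t, c s t = - c t s := by
    intro s t
    have h3 := hc (s + t)
    rw [map_add c, LinearMap.add_apply, map_add, map_add, hc, hc] at h3
    linear_combination h3
  -- `NE` is a brick
  obtain ⟨φs, hφs'⟩ := exists_adj2 hE.nd q φ
  have hff := exists_adj_ne hE.nd hq hφs' hpp
  have hq' : ∀ v, (∀ w, q w v = 0) → v = 0 := fun v hv => hq v fun w => by rw [hqs, hv]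
  have hNEb : Brick NE := brick_of_max hE hq' hφs hφ hφs' hff fun G hG => by
    by_contra hcon
    apply hG
    apply hmax
    intro f hf
    by_contra hf0
    exact hcon ⟨f, hf, hf0⟩
  have hφ0 : φ ≠ 0 := by
    rintro rfl
    apply hff
    rw [LinearMap.zero_comp]
  have hEpos : 0 < finrank F EE := by
    rw [Nat.pos_iff_ne_zero]
    intro h0
    have := finrank_zero_iff.1 h0
    exact hφ0 (LinearMap.ext fun v => by rw [Subsingleton.elim v 0, map_zero, map_zero])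
  have hEchi : chi (NE.hom NE).lat ≤ 0 := by
    rcases hX5 with ⟨Φ, hΦ, hΦ0, -⟩ | h
    · exact Brick.chi_nonpos hNEb hEpos hκ hΦ hΦ0
    · have := hNEb.h0_eq hEpos
      unfold chi
      omega
  -- the image `B` of `x`
  obtain ⟨y, hy⟩ := exists_adj2 hP.nd c x
  have hyx : y ∘ₗ x = Ξ := by
    apply ext_form hP.nd
    intro u v
    rw [LinearMap.comp_apply, hy, hΞ]
  let K : Submodule F EP := LinearMap.ker x
  let Bd : Bun C (EP ⧸ K) := NP.quo K
  have hBb : Brick Bd := brick_quo hx hxs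
  have hx0 : x ≠ 0 := by
    rintro rfl
    apply hΞn
    rw [← hyx, LinearMap.comp_zero]
    exact IsNilpotent.zero
  have hBpos : 0 < finrank F (EP ⧸ K) := by
    rw [Nat.pos_iff_ne_zero]
    intro h0
    have := finrank_zero_iff.1 h0
    apply hx0
    apply LinearMap.ext
    intro e
    rw [← im_mkQ x e, Subsingleton.elim (K.mkQ e) 0]
    exact map_zero _
  have hxm : Mor NP S x := mor_iff.2 hx
  have hΞH : Higgs κ NP Ξ := by
    rw [← hyx]
    exact comp_higgs hP.dual hcl hx hy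
  have hΞs : Ξ ∈ adj BP (-1) := by
    rw [← hyx]
    exact comp_mem_adj_neg hP.symm hcs hy
  have hι : Mor Bd S (im x) := by
    rintro p b _ ⟨e, he, rfl⟩
    exact hxm p b e he
  have hιi := im_injective x
  -- `ξ`
  have hξ : Higgs κ Bd (xi x y) := xi_higgs (by rw [hyx]; exact hΞH)
  have hξ2 : xi x y ∘ₗ xi x y ≠ 0 := by
    intro h0
    apply hΞn
    refine ⟨3, ?_⟩
    apply LinearMap.ext
    intro e
    have h3 : K.mkQ (y (x (y (x e)))) = 0 := LinearMap.congr_fun h0 (K.mkQ e)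
    have h4 : y (x (y (x e))) ∈ LinearMap.ker x := (Submodule.Quotient.mk_eq_zero _).1 h3
    rw [pow_succ, pow_two, ← hyx]
    show y (x (y (x (y (x e))))) = 0
    rw [LinearMap.mem_ker.1 h4, map_zero]
  have hξ0 : xi x y ≠ 0 := fun h0 => hξ2 (by rw [h0, LinearMap.zero_comp])
  have hBchi : chi (Bd.hom Bd).lat ≤ 0 := Brick.chi_nonpos hBb hBpos hκ hξ hξ0
  -- `RHom (NE, B) = 0`
  have hnoES : h0 (NE.hom S).lat = 0 :=
    h0_eq_zero_iff.2 fun f hf => hES f (mor_iff.1 hf)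
  have hEB := rhom_EB (mor_mkQ NP K) K.mkQ_surjective hι hιi hEP hnoES
  -- `RHom (B, NE) = 0`
  have hnoPM : h0 (NP.hom M).lat = 0 := h0_eq_zero_iff.2 fun f hf => hPM f (mor_iff.1 hf)
  have hnoPE : h0 (NP.hom NE).lat = 0 :=
    h0_eq_zero_iff.2 fun f hf => nohom_of_max hmax hPM f (mor_iff.1 hf)
  have hKM : h0 ((NP.sub K).hom M).lat = 0 := by
    refine h0_sub_eq_zero K hnoPM ?_
    have h3 := hι.h1_pre_le hιi M
    rw [hSM] at h3
    exact Nat.le_zero.1 h3
  have hKE : h0 ((NP.sub K).hom NE).lat = 0 :=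
    h0_eq_zero_iff.2 fun f hf => nohom_of_max hmax
      (fun g hg => h0_eq_zero_iff.1 hKM g (mor_iff.2 hg)) f (mor_iff.1 hf)
  have hBE : h0 (Bd.hom NE).lat = 0 ∧ h1 (Bd.hom NE).lat = 0 := by
    have e1 := (mor_mkQ NP K).h0_pre_le K.mkQ_surjective NE
    have e5 := chi_hom_left NP K NE
    unfold chi at e5
    show h0 ((NP.quo K).hom NE).lat = 0 ∧ h1 ((NP.quo K).hom NE).lat = 0
    omega
  have hchiEB : chi (NE.hom Bd).lat = 0 := by
    unfold chi
    rw [show h0 (NE.hom Bd).lat = 0 from hEB.1, show h1 (NE.hom Bd).lat = 0 from hEB.2]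
    rfl
  have hchiBE : chi (Bd.hom NE).lat = 0 := by
    unfold chi
    rw [hBE.1, hBE.2]
    rfl
  -- Lorentz
  obtain ⟨c1, c2, c3⟩ := lorentz hκ NE Bd hEpos hBpos hEchi hBchi (by rw [hchiEB, hchiBE]; rfl)
  obtain ⟨Φ, hΦ, hΦ0, hΦs⟩ : ∃ Φ, Higgs κ NE Φ ∧ Φ ≠ 0 ∧ Φ ∈ adj BE 1 := by
    rcases hX5 with h | h
    · exact h
    · exfalso
      have := hNEb.h0_eq hEpos
      unfold chi at c1
      omega
  have hd := dg_prop hκ NE Bd hBpos c3 (by rw [hchiEB, hchiBE])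
  -- `g`
  have hTE : DPair NE NE BE := hE.pair
  have hTP : DPair NP NP BP := hP.pair
  have hT' : DPair Bd (NP.sub (perp BP K)) (tquo BP K) := hTP.quo K
  let g : perp BP K →ₗ[F] (EP ⧸ K) := K.mkQ ∘ₗ (perp BP K).subtype
  have hg : Mor (NP.sub (perp BP K)) Bd g := fun p b z hz => (mor_mkQ NP K) p b _ hz
  have hyK : ∀ s, y s ∈ perp BP K := by
    intro s
    rw [mem_perp]
    intro v hv
    rw [hP.symm, hy]
    have : x v = 0 := hv
    rw [this, map_zero]
  let s : (EP ⧸ K) →ₗ[F] perp BP K := (y ∘ₗ im x).codRestrict (perp BP K) fun z => hyK _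
  have hsx : ∀ e, ((s (K.mkQ e) : perp BP K) : EP) = Ξ e := fun e => by
    rw [← hyx]; rfl
  have hs : ∀ p, s ∈ ((Bd.hom (NP.sub (perp BP K))).ch p).L (-κ p) := by
    rintro p b _ ⟨e, he, rfl⟩
    have h3 : Ξ e ∈ (NP.ch p).L (b + -κ p) := mem_HZ.1 hΞH p b e he
    rw [← hsx] at h3
    exact h3
  have hgs : (g ∘ₗ s) ∘ₗ (g ∘ₗ s) ≠ 0 := by
    have : g ∘ₗ s = xi x y := by
      apply LinearMap.ext
      intro z
      obtain ⟨e, rfl⟩ := K.mkQ_surjective z
      rfl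
    rw [this]
    exact hξ2
  obtain ⟨hgb, hgl⟩ := seven_a' hκ hTE hT' hEpos (brick_iff.1 hBb) c3 hd hEB.1 hBE.2 hg hs hgs
  -- the orthogonal brick `K^⊥`
  let N₂ : Bun C (perp BP K) := NP.sub (perp BP K)
  let e₂ : perp BP K ≃ₗ[F] (EP ⧸ K) := LinearEquiv.ofBijective g hgb
  have he₂ : ∀ z, e₂ z = g z := fun z => rfl
  have hiso : BIso N₂ Bd e₂ := fun p b z => ⟨fun h => hg p b z h, fun h => hgl p b z h⟩
  let B₂ : LinearMap.BilinForm F (perp BP K) := tres BP (perp BP K) (perp BP K)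
  have hB₂ : ∀ u v : perp BP K, B₂ u v = BP u v := fun u v => rfl
  have hB₂' : ∀ u v : perp BP K, B₂ u v = tquo BP K (g u) v := fun u v => rfl
  have hO₂ : Orth N₂ B₂ := by
    refine ⟨?_, fun u v => by rw [hB₂, hB₂, hP.symm], fun u hu => ?_⟩
    · intro p a z
      rw [show z ∈ (N₂.ch p).L a ↔ z ∈ ((NP.sub (perp BP K)).ch p).L a from Iff.rfl, hT'.mem]
      constructor
      · intro h b w hw
        have h3 := h b (g w) (hg p b w hw)
        rw [← hB₂', hB₂, hP.symm, ← hB₂, add_comm] at h3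
        exact h3
      · intro h b w hw
        obtain ⟨w', rfl⟩ := hgb.2 w
        have h3 := h b w' (hgl p b w' hw)
        rw [hB₂, hP.symm, ← hB₂, hB₂', add_comm] at h3
        exact h3
    · have h3 : hT'.equiv u = 0 := by
        apply LinearMap.ext
        intro w
        obtain ⟨w', rfl⟩ := hgb.2 w
        rw [hT'.equiv_apply, ← hB₂', hB₂, hP.symm, ← hB₂, hu]
        rfl
      exact (LinearEquiv.map_eq_zero_iff _).1 h3
  have hN₂pos : 0 < finrank F (perp BP K) := by rw [e₂.finrank_eq]; exact hBpos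
  have hN₂b : Brick N₂ := by
    intro f hf
    have hf' : Mor N₂ N₂ f := mor_iff.2 hf
    have h3 : (e₂.toLinearMap ∘ₗ f) ∘ₗ e₂.symm.toLinearMap ∈ HZ (Bd.hom Bd).lat := by
      rw [← mor_iff]
      intro p b z hz
      obtain ⟨w, rfl⟩ := e₂.surjective z
      show e₂ (f (e₂.symm (e₂ w))) ∈ _
      rw [e₂.symm_apply_apply]
      exact (hiso p b _).1 (hf' p b w ((hiso p b w).2 hz))
    obtain ⟨a, ha⟩ := hBb _ h3
    refine ⟨a, ?_⟩
    apply LinearMap.ext
    intro w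
    apply e₂.injective
    have h4 := LinearMap.congr_fun ha (e₂ w)
    have h5 : e₂ (f (e₂.symm (e₂ w))) = (a • (LinearMap.id : (EP ⧸ K) →ₗ[F] (EP ⧸ K))) (e₂ w) := h4
    rw [e₂.symm_apply_apply, ksmul, LinearMap.id_apply] at h5
    rw [h5, ksmul, LinearMap.id_apply, map_smul]
  have i1 := (hiso.hom hiso).2.2
  have i2 := ((BIso.refl NE).hom hiso).2.2
  have i3 := (hiso.hom (BIso.refl NE)).2.2
  -- the Higgs field of `K^⊥`
  have hsgx : ∀ w : perp BP K, ((s (g w) : perp BP K) : EP) = Ξ w := fun w => hsx _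
  refine two_bricks hE hO₂ h2 h2k hκ hEpos hN₂pos hNEb hN₂b hEchi (by rw [i1]; exact hBchi)
    (by rw [i2, i3, hchiEB, hchiBE]; rfl) hΦ hΦ0 hΦs (ξ := s ∘ₗ g) ?_ ?_ ?_
  · refine mem_HZ.2 fun p b w hw => ?_
    have h3 : Ξ w ∈ (NP.ch p).L (b + -κ p) := mem_HZ.1 hΞH p b _ hw
    rw [← hsgx] at h3
    exact h3
  · intro h0
    apply hξ2
    have h3 : g ∘ₗ s = xi x y := by
      apply LinearMap.ext
      intro z
      obtain ⟨e, rfl⟩ := K.mkQ_surjective z
      rfl
    rw [← h3]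
    have h4 : (g ∘ₗ s) ∘ₗ (g ∘ₗ s) = g ∘ₗ ((s ∘ₗ g) ∘ₗ s) := rfl
    rw [h4, h0, LinearMap.zero_comp, LinearMap.comp_zero]
  · intro u v
    have h3 : ((( s ∘ₗ g) u : perp BP K) : EP) = Ξ u := hsgx u
    have h4 : ((( s ∘ₗ g) v : perp BP K) : EP) = Ξ v := hsgx v
    rw [hB₂, hB₂, h3, h4]
    exact hΞs u v

end Vale.Agent.P182.H120
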