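import Vale.Agent.P182.H120.FGen
import Vale.Agent.P182.H922.BlkA
import Vale.Agent.P182.H952.Flow

/-!
# Chains between two blocks of the glued null case

From the block data `Blk` and the row `S` at infinitely many bases: the tensors
`(U i ⊓ I) ⊗ U j`, `U j ⊗ (U i ⊓ I)` and the main tensors at a single arm are in `WF`
(the part of (OFF) without the exactness).
-/

namespace Vale.Agent.P182.H120

open Module Vale.Agent.P182.H533 Vale.Agent.P182.H818 Vale.Agent.P182.B1 Vale.Agent.P182.H922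
  Vale.Agent.P182.H578 Vale.Agent.P182.H588 Vale.Agent.P182.H181 Vale.Agent.P182.H983
  Vale.Agent.P182.H922.S2

universe u v w

section lin

variable {L : Type u} {V : Type v} [Field L] [AddCommGroup V] [Module L V]
variable {q : V →ₗ[L] V →ₗ[L] L} {S : Fin 3 → End L V}

theorem rk_eq_tp (a b : V) : rk q a b = tp q a b := rfl

/-- elements of `∑ₐ Sₐ U` -/
theorem exists_sum_map {U : Submodule L V} {v : V} (hv : v ∈ ⨆ a, U.map (S a)) :
    ∃ w : Fin 3 → V, (∀ a, w a ∈ U) ∧ ∑ a, S a (w a) = v := by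
  classical
  refine Submodule.iSup_induction (fun a => U.map (S a))
    (motive := fun v => ∃ w : Fin 3 → V, (∀ a, w a ∈ U) ∧ ∑ a, S a (w a) = v) hv ?_ ?_ ?_
  · rintro a _ ⟨w, hw, rfl⟩
    refine ⟨Pi.single a w, fun b => ?_, ?_⟩
    · by_cases hb : b = a
      · subst hb; rw [Pi.single_eq_same]; exact hw
      · rw [Pi.single_eq_of_ne hb]; exact U.zero_mem
    · rw [Finset.sum_eq_single a]
      · rw [Pi.single_eq_same]
      · intro b _ hb; rw [Pi.single_eq_of_ne hb, map_zero]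
      · intro h; exact absurd (Finset.mem_univ _) h
  · exact ⟨0, fun _ => U.zero_mem, by simp⟩
  · rintro x y ⟨f, hf, rfl⟩ ⟨g, hg, rfl⟩
    exact ⟨f + g, fun a => U.add_mem (hf a) (hg a), by
      rw [← Finset.sum_add_distrib]
      exact Finset.sum_congr rfl fun a _ => by rw [Pi.add_apply, map_add]⟩

theorem wd_mem_wordsOn {Y : Submodule L V} {v : V} (hv : v ∈ Y) (w : List (Fin 3)) :
    wd S w v ∈ wordsOn S Y w.length := by
  induction w using List.reverseRecOn with
  | nil => exact hv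
  | append_singleton w c ih =>
    rw [wd_append, List.length_append, List.length_singleton]
    exact Submodule.mem_iSup_of_mem (p := fun s => (wordsOn S Y w.length).map (S s)) c
      (Submodule.mem_map_of_mem ih)

theorem wd_append' (w w' : List (Fin 3)) (v : V) : wd S (w ++ w') v = wd S w' (wd S w v) := by
  induction w generalizing v with
  | nil => rfl
  | cons c w ih => rw [List.cons_append, wd_cons, wd_cons, ih]

theorem wd_eq_zero_of_wordsOn {Y : Submodule L V} {N : ℕ} (hN : wordsOn S Y N = ⊥) {v : V}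
    (hv : v ∈ Y) (w : List (Fin 3)) (hw : N ≤ w.length) : wd S w v = 0 := by
  have h1 : w = w.take N ++ w.drop N := (List.take_append_drop N w).symm
  rw [h1, wd_append']
  have h2 := wd_mem_wordsOn (S := S) hv (w.take N)
  rw [List.length_take, min_eq_left hw, hN, Submodule.mem_bot] at h2
  rw [h2, map_zero]

variable [FiniteDimensional L V]

/-- tensors are sums of rank one tensors -/
theorem Ten_le (hq : IsForm q) {U U' : Submodule L V} {X : Submodule L (End L V)}
    (h : ∀ p ∈ U, ∀ w ∈ U', tp q p w ∈ X) : Ten q U U' ≤ X := by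
  intro T hT
  let b := Module.finBasis L U
  obtain ⟨hT1, hT2⟩ := hT
  let T' : V →ₗ[L] U := T.codRestrict U hT1
  have hz : ∀ i, ∃ z ∈ U', ∀ v, q z v = b.coord i (T' v) := by
    intro i
    refine ⟨hq.eqv.symm (b.coord i ∘ₗ T'), ?_, fun v => hq.eqv_symm_apply _ v⟩
    rw [← H62.perp_perp hq U']
    intro v hv
    have h1 : T' v = 0 := Subtype.ext (hT2 v hv)
    rw [hq.eqv_symm_apply, LinearMap.comp_apply, h1, map_zero]
  choose z hz1 hz2 using hz
  have h2 : T = ∑ i, tp q (b i : V) (z i) := by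
    refine LinearMap.ext fun v => ?_
    rw [LinearMap.sum_apply]
    have h3 : (T' v : V) = ∑ i, b.coord i (T' v) • (b i : V) := by
      conv_lhs => rw [← b.sum_repr (T' v)]
      rw [Submodule.coe_sum]
      rfl
    show (T' v : V) = _
    rw [h3]
    exact Finset.sum_congr rfl fun i _ => by rw [tp_apply, hz2]
  rw [h2]
  exact Submodule.sum_mem _ fun i _ => h _ (b i).2 _ (hz1 i)

open Vale.Agent.P182.H952 in
theorem adj_mem_Ten (hq : IsForm q) {U U' : Submodule L V} {T : End L V} (hT : T ∈ Ten q U U') :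
    adj hq T ∈ Ten q U' U := by
  refine ⟨fun v => ?_, fun v hv => hq.nondeg _ fun w => ?_⟩
  · rw [← H62.perp_perp hq U']
    intro w hw
    rw [H952.adj_left, hT.2 w hw, map_zero]
  · rw [H952.adj_left]
    exact hv _ (hT.1 w)

open Vale.Agent.P182.H952 in
theorem adj_tp (hq : IsForm q) (a b : V) : adj hq (tp q a b) = tp q b a :=
  H952.adj_uniq hq fun u v => by
    rw [tp_apply, tp_apply, map_smul, map_smul, LinearMap.smul_apply, smul_eq_mul, smul_eq_mul,
      hq.symm u a]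
    ring

open Vale.Agent.P182.H952 in
theorem adj_single (hq : IsForm q) (a : Fin 3) (T : End L V) (b : Fin 3) :
    adj hq ((Pi.single a T : Fin 3 → End L V) b) = (Pi.single a (adj hq T) : Fin 3 → End L V) b := by
  by_cases hb : b = a
  · subst hb; rw [Pi.single_eq_same, Pi.single_eq_same]
  · rw [Pi.single_eq_of_ne hb, Pi.single_eq_of_ne hb, H952.adj_zero]

end lin

section famlin

variable {L V J : Type*} [Field L] [AddCommGroup V] [Module L V] [Fintype J]

/-- `fam` as a linear map -/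
def famL (𝒟 : Cfg L V J) (t : J → V) : (Fin 3 → End L V) →ₗ[L] (J → V) × (J → V) where
  toFun := fam 𝒟 t
  map_add' _ _ := rfl
  map_smul' _ _ := rfl

theorem famL_apply (𝒟 : Cfg L V J) (t : J → V) (T : Fin 3 → End L V) :
    famL 𝒟 t T = fam 𝒟 t T := rfl

end famlin

section blk

variable {L : Type u} {V : Type v} {J : Type w} [Field L] [AddCommGroup V] [Module L V]
  [Fintype J] [DecidableEq J] {𝒟 : Cfg L V J} {u : J → L} {t t' : J → V} {W I : Submodule L V}
  {n : ℕ} {U : Fin n → Submodule L V} {d : Fin n → L} {p : Fin 3 → ℕ}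

omit [DecidableEq J] in
theorem om_mem {x : J → V} {Y : Submodule L V} (h : ∀ l, x l ∈ Y) (l : J) : 𝒟.om x l ∈ Y := by
  rw [om_eq, Tt_apply]
  exact Submodule.sum_mem _ fun k _ => Y.smul_mem _ (h k)

variable [FiniteDimensional L V]

/-- **the setup of the chains between two blocks** -/
theorem exists_setup (hG : 𝒟.Good) (B : Blk 𝒟 u t t' W I U d p) (i j : Fin n) :
    ∃ N, Setup 𝒟.q (Res 𝒟 t) W I (U i) (U j) (U i ⊓ I) (U j ⊓ I) p N := by
  obtain ⟨N, hN⟩ := B.nil
  have hnil : ∀ k, ∀ v ∈ U k ⊓ I, ∀ w : List (Fin 3), N ≤ w.length →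
      wd (Res 𝒟 t) w v = 0 := by
    intro k v hv w hw
    refine wd_eq_zero_of_wordsOn hN ?_ w hw
    have h1 := hv.2
    rw [B.I_eq] at h1
    exact h1.2
  have hpow : ∀ k s, ∀ v ∈ U k, (Res 𝒟 t s ^ p s) v ∈ U k ⊓ I := fun k s v hv =>
    ⟨pow_mem (S := Res 𝒟 t) (fun c v hv => Res_U B k c hv) _ hv, B.pow k s v hv⟩
  exact ⟨N, {
    symm := hG.form.symm
    sa := fun a => Res_SA hG t a
    Wst := fun a w hw => Res_W B a hw
    hI := fun x hx w hw => I_perp B hx hw
    Uist := fun a w hw => Res_U B i a hw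
    Ujst := fun a w hw => Res_U B j a hw
    Iist := fun a w hw => ⟨Res_U B i a hw.1, Res_I B hG a hw.2⟩
    Ijst := fun a w hw => ⟨Res_U B j a hw.1, Res_I B hG a hw.2⟩
    Igen := fun v hv => exists_sum_map (by rw [B.sumU]; exact hv)
    Jgen := fun v hv => exists_sum_map (by rw [B.sumU]; exact hv)
    IiI := inf_le_right
    IjI := inf_le_right
    pos := fun s => B.one s
    powi := fun s v hv => hpow i s v hv
    powj := fun s v hv => hpow j s v hv
    nili := hnil i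
    nilj := hnil j }⟩

omit [FiniteDimensional L V] in
theorem hmin_of_blk (B : Blk 𝒟 u t t' W I U d p) (i : Fin n) : ∀ Y : Submodule L V,
    (∀ a, ∀ v ∈ Y, Res 𝒟 t a v ∈ Y) → (∀ s, ∀ u ∈ U i, (Res 𝒟 t s ^ p s) u ∈ Y) →
    U i ⊓ I ≤ Y := fun Y h1 h2 => B.gen i Y
  (fun a => Submodule.map_le_iff_le_comap.2 fun v hv => h1 a v hv)
  (fun s => Submodule.map_le_iff_le_comap.2 fun v hv => h2 s v hv)

/-- `t_μ - u_k t` is orthogonal to `U k` -/
theorem tm_sub_mem (B : Blk 𝒟 u t t' W I U d p) (x y : L) (k : Fin n) (l : J) :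
    tm t t' x y l - (x + y * d k) • t l ∈ perp 𝒟.q (U k) := fun w hw => by
  rw [map_sub, LinearMap.sub_apply, star_tm B x y hw, map_smul, LinearMap.smul_apply,
    smul_eq_mul, sub_self]

/-- the scaling of the second leg -/
theorem fam_tm (B : Blk 𝒟 u t t' W I U d p) (x y : L) {k : Fin n} {T : Fin 3 → End L V}
    (hT : ∀ a, ∀ v ∈ perp 𝒟.q (U k), T a v = 0) :
    fam 𝒟 (tm t t' x y) T = (x + y * d k) • fam 𝒟 t T := by
  have h1 : ∀ l, tm t t' x y l - (x + y * d k) • t l ∈ perp 𝒟.q (U k) := tm_sub_mem B x y k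
  have h2 : ∀ l, 𝒟.om (tm t t' x y) l - (x + y * d k) • 𝒟.om t l ∈ perp 𝒟.q (U k) := by
    intro l
    have h3 := om_mem (𝒟 := 𝒟) (x := fun l => tm t t' x y l - (x + y * d k) • t l) h1 l
    have h4 : 𝒟.om (tm t t' x y) l - (x + y * d k) • 𝒟.om t l =
        𝒟.om (fun l => tm t t' x y l - (x + y * d k) • t l) l := by
      rw [← om_smul, om_eq, om_eq, om_eq, ← LinearMap.sub_apply, ← Tt_sub]
      rfl
    rw [h4]
    exact h3
  refine Prod.ext (funext fun l => ?_) (funext fun l => ?_)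
  · show T (𝒟.arm l) (tm t t' x y l) = (x + y * d k) • T (𝒟.arm l) (t l)
    rw [← map_smul, ← sub_eq_zero, ← map_sub]
    exact hT _ _ (h1 l)
  · show T (𝒟.arm l) (𝒟.om (tm t t' x y) l) = (x + y * d k) • T (𝒟.arm l) (𝒟.om t l)
    rw [← map_smul, ← sub_eq_zero, ← map_sub]
    exact hT _ _ (h2 l)

open Vale.Agent.P182.H952

/-- **the self-adjoint data attached to a chain at `x = ρ²`** -/
theorem beta_of_chain (hC : Ctx 𝒟 u) (B : Blk 𝒟 u t t' W I U d p) {i j : Fin n} {x y ρ : L}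
    (hx : x + y * d i = ρ) (hy : x + y * d j = 1) {T : Fin 3 → End L V}
    (hT : ∀ a, T a ∈ Ten 𝒟.q (U i) (U j))
    (hrel : ∑ a, (ρ ^ 2 • (Res 𝒟 t a * T a) - T a * Res 𝒟 t a) = 0)
    (hcomm : ∀ a, ∀ w ∈ W, ρ ^ 2 • Res 𝒟 t a (T a w) - T a (Res 𝒟 t a w) ∈ I) :
    (∀ a, T a + adj hC.good.form (T a) ∈ Ten 𝒟.q W W) ∧
    (∀ a, IsSA 𝒟.q (T a + adj hC.good.form (T a))) ∧
    (∀ a, ∀ w ∈ W, (T a + adj hC.good.form (T a)) (Res 𝒟 (tm t t' x y) a w) -
      Res 𝒟 (tm t t' x y) a ((T a + adj hC.good.form (T a)) w) ∈ I) ∧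
    (∑ a, (Res 𝒟 (tm t t' x y) a * (T a + adj hC.good.form (T a)) -
      (T a + adj hC.good.form (T a)) * Res 𝒟 (tm t t' x y) a) = 0) ∧
    fam 𝒟 (tm t t' x y) (fun a => T a + adj hC.good.form (T a)) =
      fam 𝒟 t T + ρ • fam 𝒟 t (fun a => adj hC.good.form (T a)) := by
  have hG := hC.good
  set hq := hC.good.form with hqd
  have hT' : ∀ a, adj hq (T a) ∈ Ten 𝒟.q (U j) (U i) := fun a => adj_mem_Ten hq (hT a)
  have hkill : ∀ {k l : Fin n} {A : End L V}, A ∈ Ten 𝒟.q (U k) (U l) → A ∈ Ten 𝒟.q W W :=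
    fun {k l A} hA => ⟨fun v => U_le B k (hA.1 v), fun v hv => hA.2 v fun w hw =>
      hv w (U_le B l hw)⟩
  have hSA := Res_SA hG (tm t t' x y)
  have hSA0 := Res_SA hG t
  -- `S'` on the two blocks
  have e1 : ∀ a, Res 𝒟 (tm t t' x y) a * T a = ρ ^ 2 • (Res 𝒟 t a * T a) := fun a =>
    LinearMap.ext fun v => by
      rw [Module.End.mul_apply, Res_tm B hC x y a ((hT a).1 v), hx]; rfl
  have e2 : ∀ a, T a * Res 𝒟 (tm t t' x y) a = T a * Res 𝒟 t a := fun a =>
    LinearMap.ext fun v => by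
      rw [Module.End.mul_apply, Module.End.mul_apply, ← sub_eq_zero, ← map_sub]
      refine (hT a).2 _ fun w hw => ?_
      rw [map_sub, LinearMap.sub_apply, hSA, hSA0, Res_tm B hC x y a hw, hy, one_pow, one_smul,
        sub_self]
  have e3 : ∀ a, Res 𝒟 (tm t t' x y) a * T a - T a * Res 𝒟 (tm t t' x y) a =
      ρ ^ 2 • (Res 𝒟 t a * T a) - T a * Res 𝒟 t a := fun a => by rw [e1, e2]
  have e4 : ∀ a, Res 𝒟 (tm t t' x y) a * adj hq (T a) - adj hq (T a) * Res 𝒟 (tm t t' x y) a =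
      - adj hq (Res 𝒟 (tm t t' x y) a * T a - T a * Res 𝒟 (tm t t' x y) a) := fun a => by
    rw [H952.adj_sub, H952.adj_mul, H952.adj_mul, H952.adj_SA hq (hSA a), neg_sub]
  have hWt : ∀ a, ∀ w ∈ W, (Res 𝒟 (tm t t' x y) a * T a - T a * Res 𝒟 (tm t t' x y) a) w ∈ I :=
    fun a w hw => by rw [e3]; exact hcomm a w hw
  refine ⟨fun a => Submodule.add_mem _ (hkill (hT a)) (hkill (hT' a)), fun a v w => ?_, ?_, ?_,
    ?_⟩
  · rw [LinearMap.add_apply, LinearMap.add_apply, map_add, map_add, LinearMap.add_apply,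
      H952.adj_left, H952.adj_right hq (T a)]
    exact add_comm _ _
  · intro a w hw
    have h1 : (T a + adj hq (T a)) (Res 𝒟 (tm t t' x y) a w) -
        Res 𝒟 (tm t t' x y) a ((T a + adj hq (T a)) w) =
        - (Res 𝒟 (tm t t' x y) a * T a - T a * Res 𝒟 (tm t t' x y) a) w -
        (Res 𝒟 (tm t t' x y) a * adj hq (T a) - adj hq (T a) * Res 𝒟 (tm t t' x y) a) w := by
      simp only [LinearMap.add_apply, LinearMap.sub_apply, Module.End.mul_apply, map_add]
      abel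
    rw [h1]
    refine I.sub_mem (I.neg_mem (hWt a w hw)) ?_
    rw [e4]
    refine mem_I B ?_ fun v hv => ?_
    · rw [← e4]
      refine W.sub_mem ?_ (U_le B j ((hT' a).1 _))
      rw [Module.End.mul_apply, Res_tm B hC x y a ((hT' a).1 w)]
      exact W.smul_mem _ (Res_W B a (U_le B j ((hT' a).1 w)))
    · rw [LinearMap.neg_apply, map_neg, LinearMap.neg_apply, H952.adj_left, neg_eq_zero, hG.form.symm]
      exact I_perp B (hWt a v hv) hw
  · have h1 : ∀ a, Res 𝒟 (tm t t' x y) a * (T a + adj hq (T a)) -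
        (T a + adj hq (T a)) * Res 𝒟 (tm t t' x y) a =
        (ρ ^ 2 • (Res 𝒟 t a * T a) - T a * Res 𝒟 t a) -
          adj hq (ρ ^ 2 • (Res 𝒟 t a * T a) - T a * Res 𝒟 t a) := fun a => by
      rw [← e3, sub_eq_add_neg (Res 𝒟 (tm t t' x y) a * T a - T a * Res 𝒟 (tm t t' x y) a)
        (adj hq _), ← e4]
      noncomm_ring
    rw [Finset.sum_congr rfl fun a _ => h1 a, Finset.sum_sub_distrib, ← H952.adj_sum, hrel, H952.adj_zero,
      sub_zero]
  · have h1 : fam 𝒟 (tm t t' x y) (fun a => T a + adj hq (T a)) =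
        fam 𝒟 (tm t t' x y) T + fam 𝒟 (tm t t' x y) (fun a => adj hq (T a)) := rfl
    rw [h1, fam_tm B x y (k := j) (fun a => (hT a).2), fam_tm B x y (k := i) (fun a => (hT' a).2),
      hx, hy, one_smul]

/-- the bases used between two blocks -/
def GoodR (𝒟 : Cfg L V J) (u : J → L) (t t' : J → V) (W I : Submodule L V) {n : ℕ}
    (d : Fin n → L) (i j : Fin n) : Set L :=
  {ρ | ∃ x y : L, x + y * d i = ρ ∧ x + y * d j = 1 ∧ RowS 𝒟 u t t' W I x y}

/-- **both halves of all members of a family are in `WF`** -/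
theorem mem_WF_of_fchain (hC : Ctx 𝒟 u) (B : Blk 𝒟 u t t' W I U d p) {i j : Fin n}
    (hR : (GoodR 𝒟 u t t' W I d i j).Infinite) {T : ℕ → Fin 3 → End L V} {M n0 : ℕ}
    (hT : FChain 𝒟.q (Res 𝒟 t) W I (U i) (U j) (U i ⊓ I) T M n0) (m : ℕ) :
    fam 𝒟 t (T m) ∈ WF 𝒟 t W I u ∧
      fam 𝒟 t (fun a => adj hC.good.form (T m a)) ∈ WF 𝒟 t W I u := by
  set hq := hC.good.form with hqd
  let adT : (Fin 3 → End L V) → Fin 3 → End L V := fun T a => adj hq (T a)
  let F : ℕ → (J → V) × (J → V) := fun k =>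
    if k % 2 = 0 then fam 𝒟 t (T (k / 2)) else fam 𝒟 t (adT (T (k / 2)))
  have key : ∀ ρ ∈ GoodR 𝒟 u t t' W I d i j,
      ∑ k ∈ Finset.range (2 * (M + 1)), ρ ^ k • F k ∈ WF 𝒟 t W I u := by
    rintro ρ ⟨x, y, hx, hy, hS⟩
    obtain ⟨h1, h2, h3, h4, h5⟩ := beta_of_chain hC B hx hy
      (T := FChain.val T M (ρ ^ 2)) (fun a => ⟨fun v => hT.val_range _ a v, fun v hv =>
        hT.val_kill _ a hv⟩) (hT.val_rel _) (fun a w hw => hT.val_comm _ a hw)
    have h6 := hS _ h1 h2 h3 h4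
    rw [h5] at h6
    have h7 : ∀ K, ∑ k ∈ Finset.range (2 * K), ρ ^ k • F k =
        ∑ m ∈ Finset.range K, (ρ ^ (2 * m) • fam 𝒟 t (T m) +
          ρ ^ (2 * m + 1) • fam 𝒟 t (adT (T m))) := by
      intro K
      induction K with
      | zero => rfl
      | succ K ih =>
        rw [show 2 * (K + 1) = 2 * K + 1 + 1 by ring, Finset.sum_range_succ,
          Finset.sum_range_succ, ih, Finset.sum_range_succ]
        have e1 : F (2 * K) = fam 𝒟 t (T K) := by
          show (if 2 * K % 2 = 0 then _ else _) = _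
          rw [if_pos (by omega), show 2 * K / 2 = K by omega]
        have e2 : F (2 * K + 1) = fam 𝒟 t (adT (T K)) := by
          show (if (2 * K + 1) % 2 = 0 then _ else _) = _
          rw [if_neg (by omega), show (2 * K + 1) / 2 = K by omega]
        rw [e1, e2, add_assoc]
    rw [h7]
    have h8 : fam 𝒟 t (FChain.val T M (ρ ^ 2)) =
        ∑ m ∈ Finset.range (M + 1), ρ ^ (2 * m) • fam 𝒟 t (T m) := by
      have h9 : FChain.val T M (ρ ^ 2) = ∑ m ∈ Finset.range (M + 1), ρ ^ (2 * m) • T m := by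
        funext a
        rw [Finset.sum_apply, FChain.val]
        exact Finset.sum_congr rfl fun m _ => by rw [← pow_mul]; rfl
      rw [h9, ← famL_apply, map_sum]
      exact Finset.sum_congr rfl fun m _ => by rw [map_smul, famL_apply]
    have h10 : fam 𝒟 t (fun a => adj hq (FChain.val T M (ρ ^ 2) a)) =
        ∑ m ∈ Finset.range (M + 1), ρ ^ (2 * m) • fam 𝒟 t (adT (T m)) := by
      have h9 : (fun a => adj hq (FChain.val T M (ρ ^ 2) a)) =
          ∑ m ∈ Finset.range (M + 1), ρ ^ (2 * m) • adT (T m) := by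
        funext a
        rw [Finset.sum_apply, FChain.val, H952.adj_sum]
        exact Finset.sum_congr rfl fun m _ => by
          rw [H952.adj_smul, ← pow_mul]; rfl
      rw [h9, ← famL_apply, map_sum]
      exact Finset.sum_congr rfl fun m _ => by rw [map_smul, famL_apply]
    rw [Finset.sum_add_distrib]
    have h11 : ∑ m ∈ Finset.range (M + 1), ρ ^ (2 * m + 1) • fam 𝒟 t (adT (T m)) =
        ρ • ∑ m ∈ Finset.range (M + 1), ρ ^ (2 * m) • fam 𝒟 t (adT (T m)) := by
      rw [Finset.smul_sum]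
      exact Finset.sum_congr rfl fun m _ => by rw [smul_smul, ← pow_succ']
    rw [h11, ← h8, ← h10]
    exact h6
  have h0 := mem_of_pow (WF 𝒟 t W I u) (2 * (M + 1)) F hR key
  by_cases hm : m < M + 1
  · refine ⟨?_, ?_⟩
    · have h1 := h0 (2 * m) (by omega)
      have e1 : F (2 * m) = fam 𝒟 t (T m) := by
        show (if 2 * m % 2 = 0 then _ else _) = _
        rw [if_pos (by omega), show 2 * m / 2 = m by omega]
      rwa [e1] at h1
    · have h1 := h0 (2 * m + 1) (by omega)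
      have e2 : F (2 * m + 1) = fam 𝒟 t (adT (T m)) := by
        show (if (2 * m + 1) % 2 = 0 then _ else _) = _
        rw [if_neg (by omega), show (2 * m + 1) / 2 = m by omega]
      rwa [e2] at h1
  · have h1 : T m = 0 := hT.top m (by omega)
    have h2 : (fun a => adj hq (T m a)) = 0 := by
      funext a; rw [h1]; exact H952.adj_zero hq
    rw [h2, h1]
    have h3 : fam 𝒟 t 0 = 0 := by rw [← famL_apply, map_zero]
    rw [h3]
    exact ⟨Submodule.zero_mem _, Submodule.zero_mem _⟩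

/-- **(OFF), the tails** (without the exactness): `(U i ⊓ I) ⊗ U j` and `U j ⊗ (U i ⊓ I)` at a
single arm -/
theorem off_tail (hC : Ctx 𝒟 u) (B : Blk 𝒟 u t t' W I U d p) {i j : Fin n}
    (hR : (GoodR 𝒟 u t t' W I d i j).Infinite) (a : Fin 3) :
    (∀ T ∈ Ten 𝒟.q (U i ⊓ I) (U j), fam 𝒟 t (Pi.single a T) ∈ WF 𝒟 t W I u) ∧
    ∀ T ∈ Ten 𝒟.q (U j) (U i ⊓ I), fam 𝒟 t (Pi.single a T) ∈ WF 𝒟 t W I u := by
  set hq := hC.good.form with hqd
  obtain ⟨N, hSt⟩ := exists_setup hC.good B i j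
  let f : End L V →ₗ[L] (J → V) × (J → V) := famL 𝒟 t ∘ₗ
    LinearMap.single L (fun _ : Fin 3 => End L V) a
  have hf : ∀ T, f T = fam 𝒟 t (Pi.single a T) := fun T => rfl
  have h1 : ∀ z ∈ U j, U i ⊓ I ≤ (WF 𝒟 t W I u).comap (f ∘ₗ rkL 𝒟.q z) ⊓
      (WF 𝒟 t W I u).comap (f ∘ₗ rkR 𝒟.q z) := by
    intro z hz
    refine hSt.le_of_tail (hmin_of_blk B i) fun e he => ?_
    obtain ⟨T, M, n0, m, hT, -, hTm⟩ := he a z hz
    obtain ⟨h2, h3⟩ := mem_WF_of_fchain hC B hR hT m
    refine ⟨?_, ?_⟩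
    · rw [hTm] at h2
      exact h2
    · have h4 : (fun b => adj hq (T m b)) = Pi.single a (rk 𝒟.q z e) := by
        funext b
        rw [hTm, adj_single, rk_eq_tp, adj_tp]
        rfl
      rw [h4] at h3
      exact h3
  refine ⟨fun T hT => ?_, fun T hT => ?_⟩
  · exact Ten_le hq (X := (WF 𝒟 t W I u).comap f) (fun e he z hz => (h1 z hz he).1) hT
  · exact Ten_le hq (X := (WF 𝒟 t W I u).comap f) (fun z hz e he => (h1 z hz he).2) hT

/-- **(OFF), the main tensors**, in both orders -/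
theorem off_main (hC : Ctx 𝒟 u) (B : Blk 𝒟 u t t' W I U d p) {i j : Fin n}
    (hR : (GoodR 𝒟 u t t' W I d i j).Infinite) (s : Fin 3) {a' b' : V} (ha : a' ∈ U i)
    (hb : b' ∈ U j) {k : ℕ} (hk : k < p s) :
    fam 𝒟 t (Pi.single s (tp 𝒟.q ((Res 𝒟 t s ^ k) a') ((Res 𝒟 t s ^ (p s - 1 - k)) b'))) ∈
        WF 𝒟 t W I u ∧
      fam 𝒟 t (Pi.single s (tp 𝒟.q ((Res 𝒟 t s ^ (p s - 1 - k)) b') ((Res 𝒟 t s ^ k) a'))) ∈
        WF 𝒟 t W I u := by
  set hq := hC.good.form with hqd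
  obtain ⟨N, hSt⟩ := exists_setup hC.good B i j
  obtain ⟨T, M, n0, m, hT, hTm⟩ := hSt.exists_main s ha hb hk
  obtain ⟨h2, h3⟩ := mem_WF_of_fchain hC B hR hT m
  refine ⟨?_, ?_⟩
  · rw [hTm] at h2
    exact h2
  · have h4 : (fun b => adj hq (T m b)) = Pi.single s
        (tp 𝒟.q ((Res 𝒟 t s ^ (p s - 1 - k)) b') ((Res 𝒟 t s ^ k) a')) := by
      funext b
      rw [hTm, adj_single, rk_eq_tp, adj_tp]
    rw [h4] at h3
    exact h3

end blk

end Vale.Agent.P182.H120
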