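import Vale.Agent.P182.H818.Chain

/-!
# Families of tensors (formal chains)

`FChain q S W I Ui Uj Ii T M n0`: a finite family `T 0, …, T M` of triples of tensors in
`Ui ⊗ Uj` with `∑ₐ Sₐ Tⁿₐ = ∑ₐ Tⁿ⁺¹ₐ Sₐ`, commuting modulo `I` on `W`, with values in `Ii`
from `n0` on.  `exists_main`, `exists_tail`: every main tensor `S_s^k a' ⊗ S_s^{p-1-k} b'` at the
arm `s`, and every tensor `w (S_s^p a') ⊗ z` at any arm, is a member of such a family.
-/

namespace Vale.Agent.P182.H120

open Module Vale.Agent.P182.H533 Vale.Agent.P182.H818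

universe u v

variable {L : Type u} {V : Type v} [Field L] [AddCommGroup V] [Module L V]

/-- a formal chain -/
structure FChain (q : V →ₗ[L] V →ₗ[L] L) (S : Fin 3 → End L V) (W I Ui Uj Ii : Submodule L V)
    (T : ℕ → Fin 3 → End L V) (M n0 : ℕ) : Prop where
  range : ∀ n a v, T n a v ∈ Ui
  kill : ∀ n a, ∀ v ∈ perp q Uj, T n a v = 0
  top : ∀ n, M < n → T n = 0
  zero : ∑ a, T 0 a * S a = 0
  step : ∀ n, ∑ a, S a * T n a = ∑ a, T (n + 1) a * S a
  comm0 : ∀ a, ∀ w ∈ W, T 0 a (S a w) ∈ I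
  comm : ∀ n a, ∀ w ∈ W, S a (T n a w) - T (n + 1) a (S a w) ∈ I
  tail : ∀ n, n0 ≤ n → ∀ a v, T n a v ∈ Ii

variable {q : V →ₗ[L] V →ₗ[L] L} {S : Fin 3 → End L V} {W I Ui Uj Ii : Submodule L V}

/-! ### Evaluation at a point -/

/-- the value of the family at `x` -/
def FChain.val (T : ℕ → Fin 3 → End L V) (M : ℕ) (x : L) (a : Fin 3) : End L V :=
  ∑ n ∈ Finset.range (M + 1), x ^ n • T n a

namespace FChain

variable {T : ℕ → Fin 3 → End L V} {M n0 : ℕ}

theorem val_apply (x : L) (a : Fin 3) (v : V) :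
    val T M x a v = ∑ n ∈ Finset.range (M + 1), x ^ n • T n a v := by
  rw [val, LinearMap.sum_apply]; rfl

theorem val_range (h : FChain q S W I Ui Uj Ii T M n0) (x : L) (a : Fin 3) (v : V) :
    val T M x a v ∈ Ui := by
  rw [val_apply]
  exact Submodule.sum_mem _ fun n _ => Submodule.smul_mem _ _ (h.range n a v)

theorem val_kill (h : FChain q S W I Ui Uj Ii T M n0) (x : L) (a : Fin 3) {v : V}
    (hv : v ∈ perp q Uj) : val T M x a v = 0 := by
  rw [val_apply]
  exact Finset.sum_eq_zero fun n _ => by rw [h.kill n a v hv, smul_zero]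

/-- **the chain relation at `x`** -/
theorem val_rel (h : FChain q S W I Ui Uj Ii T M n0) (x : L) :
    ∑ a, (x • (S a * val T M x a) - val T M x a * S a) = 0 := by
  have h1 := chain_total h.zero h.step (h.top (M + 1) (Nat.lt_succ_self M)) x
  have h2 : ∀ a, (∑ n ∈ Finset.range (M + 1), x ^ n • T n) a = val T M x a := fun a => by
    rw [Finset.sum_apply]; rfl
  simpa only [h2] using h1

/-- **commutation modulo `I` at `x`** -/
theorem val_comm (h : FChain q S W I Ui Uj Ii T M n0) (x : L) (a : Fin 3) {w : V} (hw : w ∈ W) :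
    x • S a (val T M x a w) - val T M x a (S a w) ∈ I := by
  have key : ∀ m, x • S a (∑ n ∈ Finset.range m, x ^ n • T n a w) -
      ∑ n ∈ Finset.range m, x ^ n • T n a (S a w) - x ^ m • T m a (S a w) +
        T 0 a (S a w) ∈ I ∨ m = 0 := by
    intro m
    induction m with
    | zero => exact Or.inr rfl
    | succ m ih =>
      left
      have h3 : x • S a (∑ n ∈ Finset.range (m + 1), x ^ n • T n a w) -
          ∑ n ∈ Finset.range (m + 1), x ^ n • T n a (S a w) -
          x ^ (m + 1) • T (m + 1) a (S a w) + T 0 a (S a w) =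
          (x • S a (∑ n ∈ Finset.range m, x ^ n • T n a w) -
      ∑ n ∈ Finset.range m, x ^ n • T n a (S a w) - x ^ m • T m a (S a w) +
        T 0 a (S a w)) + x ^ (m + 1) • (S a (T m a w) - T (m + 1) a (S a w)) := by
        rw [Finset.sum_range_succ, Finset.sum_range_succ, map_add, map_smul, smul_add, smul_sub,
          smul_smul x, ← pow_succ']
        abel
      rw [h3]
      refine I.add_mem ?_ (I.smul_mem _ (h.comm m a w hw))
      rcases ih with ih | rfl
      · exact ih
      · simp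
  have h1 := key (M + 1)
  rcases h1 with h1 | h1
  · have h2 : T (M + 1) = 0 := h.top _ (Nat.lt_succ_self M)
    rw [h2, Pi.zero_apply, LinearMap.zero_apply, smul_zero, sub_zero] at h1
    rw [val_apply, val_apply]
    have h4 := I.sub_mem h1 (h.comm0 a w hw)
    rwa [add_sub_cancel_right] at h4
  · omega

end FChain

/-! ### Membership of the tails -/

theorem LT_apply_mem {Y : Submodule L V} (m : ℕ) {z : List (Fin 3) → V} (hz : ∀ w, z w ∈ Y)
    (u v : V) (a : Fin 3) : LT q S m z u a v ∈ Y := by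
  induction m generalizing z u with
  | zero =>
    show rk q (z [a]) u v ∈ Y
    rw [rk_apply]
    exact Y.smul_mem _ (hz _)
  | succ m ih =>
    show (∑ b, LT q S m (fun w => z (b :: w)) (S b u) a) v ∈ Y
    rw [LinearMap.sum_apply]
    exact Submodule.sum_mem _ fun b _ => ih (fun w => hz _) (S b u)

theorem LT_kill {Y : Submodule L V} (hS : ∀ c, ∀ u ∈ Y, S c u ∈ Y) {v : V}
    (hv : ∀ u ∈ Y, q u v = 0) (m : ℕ) (z : List (Fin 3) → V) {u : V} (hu : u ∈ Y) (a : Fin 3) :
    LT q S m z u a v = 0 := by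
  induction m generalizing z u with
  | zero =>
    show rk q (z [a]) u v = 0
    rw [rk_apply, hv u hu, zero_smul]
  | succ m ih =>
    show (∑ b, LT q S m (fun w => z (b :: w)) (S b u) a) v = 0
    rw [LinearMap.sum_apply]
    exact Finset.sum_eq_zero fun b _ => ih (fun w => z (b :: w)) (hS b u hu)

theorem RT_apply_mem {Y : Submodule L V} (hS : ∀ c, ∀ u ∈ Y, S c u ∈ Y) (m : ℕ)
    (y : List (Fin 3) → V) {u : V} (hu : u ∈ Y) (v : V) (a : Fin 3) : RT q S m y u a v ∈ Y := by
  induction m generalizing y u with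
  | zero =>
    show rk q u (y [a]) v ∈ Y
    rw [rk_apply]
    exact Y.smul_mem _ hu
  | succ m ih =>
    show (∑ b, RT q S m (fun w => y (b :: w)) (S b u) a) v ∈ Y
    rw [LinearMap.sum_apply]
    exact Submodule.sum_mem _ fun b _ => ih (fun w => y (b :: w)) (hS b u hu)

theorem RT_kill {Y : Submodule L V} {v : V} (hv : ∀ u ∈ Y, q u v = 0) (m : ℕ)
    {y : List (Fin 3) → V} (hy : ∀ w, y w ∈ Y) (u : V) (a : Fin 3) : RT q S m y u a v = 0 := by
  induction m generalizing y u with
  | zero =>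
    show rk q u (y [a]) v = 0
    rw [rk_apply, hv _ (hy _), zero_smul]
  | succ m ih =>
    show (∑ b, RT q S m (fun w => y (b :: w)) (S b u) a) v = 0
    rw [LinearMap.sum_apply]
    exact Finset.sum_eq_zero fun b _ => ih (fun w => hy _) (S b u)

theorem pow_mem {Y : Submodule L V} {s : Fin 3} (hS : ∀ c, ∀ u ∈ Y, S c u ∈ Y) (k : ℕ) {u : V}
    (hu : u ∈ Y) : (S s ^ k) u ∈ Y := by
  induction k with
  | zero => exact hu
  | succ k ih => rw [pow_succ']; exact hS s _ ih

/-! ### Existence -/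

/-- the data of a chain -/
structure Setup (q : V →ₗ[L] V →ₗ[L] L) (S : Fin 3 → End L V) (W I Ui Uj Ii Ij : Submodule L V)
    (p : Fin 3 → ℕ) (N : ℕ) : Prop where
  symm : ∀ x y, q x y = q y x
  sa : ∀ a, IsSA q (S a)
  Wst : ∀ a, ∀ w ∈ W, S a w ∈ W
  hI : ∀ x ∈ I, ∀ w ∈ W, q x w = 0
  Uist : ∀ a, ∀ w ∈ Ui, S a w ∈ Ui
  Ujst : ∀ a, ∀ w ∈ Uj, S a w ∈ Uj
  Iist : ∀ a, ∀ w ∈ Ii, S a w ∈ Ii
  Ijst : ∀ a, ∀ w ∈ Ij, S a w ∈ Ij
  Igen : ∀ v ∈ Ui, ∃ w : Fin 3 → V, (∀ a, w a ∈ Ui) ∧ ∑ a, S a (w a) = v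
  Jgen : ∀ v ∈ Uj, ∃ w : Fin 3 → V, (∀ a, w a ∈ Uj) ∧ ∑ a, S a (w a) = v
  IiI : Ii ≤ I
  IjI : Ij ≤ I
  pos : ∀ s, 0 < p s
  powi : ∀ s, ∀ v ∈ Ui, (S s ^ p s) v ∈ Ii
  powj : ∀ s, ∀ v ∈ Uj, (S s ^ p s) v ∈ Ij
  nili : ∀ v ∈ Ii, ∀ w : List (Fin 3), N ≤ w.length → wd S w v = 0
  nilj : ∀ v ∈ Ij, ∀ w : List (Fin 3), N ≤ w.length → wd S w v = 0

namespace Setup

variable {Ij : Submodule L V} {p : Fin 3 → ℕ} {N : ℕ}

/-- exchange of the two blocks -/
theorem swap (h : Setup q S W I Ui Uj Ii Ij p N) : Setup q S W I Uj Ui Ij Ii p N where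
  symm := h.symm
  sa := h.sa
  Wst := h.Wst
  hI := h.hI
  Uist := h.Ujst
  Ujst := h.Uist
  Iist := h.Ijst
  Ijst := h.Iist
  Igen := h.Jgen
  Jgen := h.Igen
  IiI := h.IjI
  IjI := h.IiI
  pos := h.pos
  powi := h.powj
  powj := h.powi
  nili := h.nilj
  nilj := h.nili

theorem mono (h : Setup q S W I Ui Uj Ii Ij p N) {N' : ℕ} (hN : N ≤ N') :
    Setup q S W I Ui Uj Ii Ij p N' :=
  { h with
    nili := fun v hv w hw => h.nili v hv w (hN.trans hw)
    nilj := fun v hv w hw => h.nilj v hv w (hN.trans hw) }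

/-- **the chain through the main part** -/
theorem fchain (h : Setup q S W I Ui Uj Ii Ij p N) (hN : 0 < N) (s : Fin 3) {a' b' : V}
    {z y : List (Fin 3) → V} (hz : Tr S Ui z) (hz0 : z [] = a') (hy : Tr S Uj y)
    (hy0 : y [] = b') :
    FChain q S W I Ui Uj Ii (chn q S s (p s) N a' b' z y) (N + p s + N) (N + p s) := by
  have ha' : a' ∈ Ui := hz0 ▸ hz.mem []
  have hb' : b' ∈ Uj := hy0 ▸ hy.mem []
  have hpa : (S s ^ p s) a' ∈ Ii := h.powi s a' ha'
  have hpb : (S s ^ p s) b' ∈ Ij := h.powj s b' hb'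
  have hIjW : ∀ w ∈ W, ∀ u ∈ Ij, q u w = 0 := fun w hw u hu => h.hI u (h.IjI hu) w hw
  have hlow : ∀ n, n < N → ∀ a, ∀ w ∈ W, chn q S s (p s) N a' b' z y n a w = 0 := by
    intro n hn a w hw
    have e1 : chn q S s (p s) N a' b' z y n = LT q S (N - 1 - n) z ((S s ^ p s) b') := by
      unfold chn; rw [if_pos hn]
    rw [e1]
    exact LT_kill h.Ijst (hIjW w hw) _ z hpb a
  have hhigh : ∀ n, N + p s ≤ n → ∀ a v, chn q S s (p s) N a' b' z y n a v ∈ Ii := by
    intro n hn a v
    have e1 : chn q S s (p s) N a' b' z y n = RT q S (n - (N + p s)) y ((S s ^ p s) a') := by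
      unfold chn; rw [if_neg (by omega), if_neg (by omega)]
    rw [e1]
    exact RT_apply_mem h.Iist _ y hpa v a
  have hmain : ∀ n, N ≤ n → n < N + p s → chn q S s (p s) N a' b' z y n =
      Pi.single s (rk q ((S s ^ (n - N)) a') ((S s ^ (N + p s - 1 - n)) b')) := by
    intro n h1 h2
    unfold chn; rw [if_neg (by omega), if_pos h2]
  have hpp := h.pos s
  refine ⟨?_, ?_, ?_, ?_, ?_, ?_, ?_, hhigh⟩
  · intro n a v
    unfold chn
    split_ifs
    · exact LT_apply_mem _ hz.mem _ v a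
    · by_cases has : a = s
      · subst has
        rw [Pi.single_eq_same, rk_apply]
        exact Ui.smul_mem _ (pow_mem h.Uist _ ha')
      · rw [Pi.single_eq_of_ne has]; exact Ui.zero_mem
    · exact RT_apply_mem h.Uist _ y (pow_mem h.Uist _ ha') v a
  · intro n a v hv
    have hv' : ∀ u ∈ Uj, q u v = 0 := fun u hu => by rw [h.symm]; exact hv u hu
    unfold chn
    split_ifs
    · exact LT_kill h.Ujst hv' _ z (pow_mem h.Ujst _ hb') a
    · by_cases has : a = s
      · subst has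
        rw [Pi.single_eq_same, rk_apply, hv' _ (pow_mem h.Ujst _ hb'), zero_smul]
      · rw [Pi.single_eq_of_ne has]; rfl
    · exact RT_kill hv' _ hy.mem _ a
  · intro n hn
    exact chn_end (h.nili _ hpa) (le_of_lt hn)
  · exact chn_start h.sa hN hz fun w hw => h.nilj _ hpb w hw.ge
  · intro n
    exact chn_rel h.sa hpp hz hz0 hy hy0 n
  · intro a w hw
    rw [hlow 0 hN a _ (h.Wst a w hw)]
    exact I.zero_mem
  · intro n a w hw
    have hSw := h.Wst a w hw
    rcases lt_trichotomy (n + 1) N with h1 | h1 | h1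
    · rw [hlow n (by omega) a w hw, hlow (n + 1) h1 a _ hSw, map_zero, sub_zero]
      exact I.zero_mem
    · rw [hlow n (by omega) a w hw, map_zero, zero_sub, hmain (n + 1) (by omega) (by omega)]
      by_cases has : a = s
      · subst has
        have h2 : q ((S a ^ (N + p a - 1 - (n + 1))) b') (S a w) = 0 := by
          rw [← h.sa a, ← Module.End.mul_apply, ← pow_succ',
            show N + p a - 1 - (n + 1) + 1 = p a by omega]
          exact hIjW w hw _ hpb
        rw [Pi.single_eq_same, rk_apply, h2, zero_smul, neg_zero]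
        exact I.zero_mem
      · rw [Pi.single_eq_of_ne has, LinearMap.zero_apply, neg_zero]; exact I.zero_mem
    · by_cases h2 : n + 1 < N + p s
      · rw [hmain n (by omega) (by omega), hmain (n + 1) (by omega) h2]
        by_cases has : a = s
        · subst has
          rw [Pi.single_eq_same, Pi.single_eq_same, rk_apply, rk_apply, map_smul,
            ← h.sa a, ← Module.End.mul_apply, ← Module.End.mul_apply, ← pow_succ', ← pow_succ',
            show N + p a - 1 - (n + 1) + 1 = N + p a - 1 - n by omega,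
            show n - N + 1 = n + 1 - N by omega, sub_self]
          exact I.zero_mem
        · rw [Pi.single_eq_of_ne has, Pi.single_eq_of_ne has, LinearMap.zero_apply, map_zero,
            LinearMap.zero_apply, sub_zero]
          exact I.zero_mem
      · refine I.sub_mem ?_ (h.IiI (hhigh _ (by omega) a _))
        by_cases h3 : n + 1 = N + p s
        · rw [hmain n (by omega) (by omega)]
          by_cases has : a = s
          · subst has
            rw [Pi.single_eq_same, rk_apply, map_smul, ← Module.End.mul_apply, ← pow_succ',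
              show n - N + 1 = p a by omega]
            exact I.smul_mem _ (h.IiI hpa)
          · rw [Pi.single_eq_of_ne has, LinearMap.zero_apply, map_zero]; exact I.zero_mem
        · exact h.IiI (h.Iist a _ (hhigh n (by omega) a w))

/-- **every main tensor is a member of a family** -/
theorem exists_main (h : Setup q S W I Ui Uj Ii Ij p N) (s : Fin 3) {a' b' : V} (ha : a' ∈ Ui)
    (hb : b' ∈ Uj) {k : ℕ} (hk : k < p s) :
    ∃ T M n0 n, FChain q S W I Ui Uj Ii T M n0 ∧
      T n = Pi.single s (rk q ((S s ^ k) a') ((S s ^ (p s - 1 - k)) b')) := by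
  obtain ⟨z, hz, hz0⟩ := exists_tree h.Igen ha
  obtain ⟨y, hy, hy0⟩ := exists_tree h.Jgen hb
  exact ⟨_, _, _, N + 1 + k, (h.mono (Nat.le_succ N)).fchain (Nat.succ_pos N) s hz hz0 hy hy0,
    chn_main hk⟩

/-- **every tail tensor is a member of a family** -/
theorem exists_tail (h : Setup q S W I Ui Uj Ii Ij p N) (s : Fin 3) {a' : V} (ha : a' ∈ Ui)
    (w : List (Fin 3)) (d : Fin 3) {z : V} (hz : z ∈ Uj) :
    ∃ T M n0 n, FChain q S W I Ui Uj Ii T M n0 ∧ n0 ≤ n ∧
      T n = Pi.single d (rk q (wd S w ((S s ^ p s) a')) z) := by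
  obtain ⟨x, hx, hx0⟩ := exists_tree h.Igen ha
  obtain ⟨y, hy, hy0⟩ := exists_path_right (q := q) h.Jgen h.Ujst w d hz
  refine ⟨_, _, _, N + 1 + p s + w.length,
    (h.mono (Nat.le_succ N)).fchain (Nat.succ_pos N) s hx hx0 hy rfl, Nat.le_add_right _ _, ?_⟩
  rw [← hy0]
  exact chn_right w.length

end Setup

end Vale.Agent.P182.H120
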