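import Vale.Agent.P182.H120.FChain

/-!
# Formal chains: generation of `Ii` by words, Vandermonde extraction
-/

namespace Vale.Agent.P182.H120

open Module Vale.Agent.P182.H533 Vale.Agent.P182.H818

universe u v

variable {L : Type u} {V : Type v} [Field L] [AddCommGroup V] [Module L V]
variable {q : V →ₗ[L] V →ₗ[L] L} {S : Fin 3 → End L V}

theorem wd_append (w : List (Fin 3)) (c : Fin 3) (v : V) :
    wd S (w ++ [c]) v = S c (wd S w v) := by
  induction w generalizing v with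
  | nil => rfl
  | cons d w ih => rw [List.cons_append, wd_cons, wd_cons, ih]

/-- the words of length `N` kill the perp of `words S N` -/
theorem wd_eq_zero_of_perp (hq : IsForm q) (hS : ∀ a, IsSA q (S a)) {N : ℕ} {v : V}
    (hv : ∀ x ∈ words S N, q v x = 0) (w : List (Fin 3)) (hw : N ≤ w.length) :
    wd S w v = 0 := by
  have key : ∀ (w : List (Fin 3)) (v : V), (∀ x ∈ words S w.length, q v x = 0) →
      wd S w v = 0 := by
    intro w
    induction w with
    | nil => intro v hv; exact hq.nondeg v fun x => hv x Submodule.mem_top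
    | cons c w ih =>
      intro v hv
      rw [wd_cons]
      refine ih _ fun x hx => ?_
      rw [hS c]
      exact hv _ (Submodule.mem_iSup_of_mem (p := fun s => (words S w.length).map (S s)) c
        (Submodule.mem_map_of_mem hx))
  exact key w v fun x hx => hv x (words_antitone S hw hx)

/-- if `Ii` is the smallest stable submodule containing all `S_s^{p_s} u`, it is spanned by the
words in these elements -/
theorem le_of_wd {Ii Ui : Submodule L V} {p : Fin 3 → ℕ}
    (hmin : ∀ Y : Submodule L V, (∀ a, ∀ v ∈ Y, S a v ∈ Y) →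
      (∀ s, ∀ u ∈ Ui, (S s ^ p s) u ∈ Y) → Ii ≤ Y)
    {X : Submodule L V} (hX : ∀ s, ∀ u ∈ Ui, ∀ w : List (Fin 3), wd S w ((S s ^ p s) u) ∈ X) :
    Ii ≤ X := by
  set G : Set V := {v | ∃ s, ∃ u ∈ Ui, ∃ w : List (Fin 3), v = wd S w ((S s ^ p s) u)} with hG
  have h1 : Ii ≤ Submodule.span L G := by
    refine hmin _ ?_ ?_
    · intro a v hv
      refine Submodule.span_induction (p := fun v _ => S a v ∈ Submodule.span L G) ?_ ?_ ?_ ?_ hv
      · rintro x ⟨s, u, hu, w, rfl⟩
        exact Submodule.subset_span ⟨s, u, hu, w ++ [a], (wd_append w a _).symm⟩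
      · rw [map_zero]; exact Submodule.zero_mem _
      · intro x y _ _ hx hy; rw [map_add]; exact Submodule.add_mem _ hx hy
      · intro c x _ hx; rw [map_smul]; exact Submodule.smul_mem _ _ hx
    · intro s u hu
      exact Submodule.subset_span ⟨s, u, hu, [], rfl⟩
  refine h1.trans (Submodule.span_le.2 ?_)
  rintro x ⟨s, u, hu, w, rfl⟩
  exact hX s u hu w

variable {W I Ui Uj Ii Ij : Submodule L V} {p : Fin 3 → ℕ} {N : ℕ}

namespace Setup

/-- **all tails**: a submodule containing every `e` whose tensors `e ⊗ z` are (at every arm)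
members of families, contains `Ii` -/
theorem le_of_tail (h : Setup q S W I Ui Uj Ii Ij p N)
    (hmin : ∀ Y : Submodule L V, (∀ a, ∀ v ∈ Y, S a v ∈ Y) →
      (∀ s, ∀ u ∈ Ui, (S s ^ p s) u ∈ Y) → Ii ≤ Y)
    {X : Submodule L V}
    (hX : ∀ e : V, (∀ d : Fin 3, ∀ z ∈ Uj, ∃ T M n0 n, FChain q S W I Ui Uj Ii T M n0 ∧ n0 ≤ n ∧
      T n = Pi.single d (rk q e z)) → e ∈ X) : Ii ≤ X :=
  le_of_wd hmin fun s _ hu w => hX _ fun d _ hz => h.exists_tail s hu w d hz

end Setup

/-! ### Extraction -/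

/-- one-variable Vandermonde -/
theorem mem_of_pow {A : Type*} [AddCommGroup A] [Module L A] (Y : Submodule L A) (M : ℕ)
    (F : ℕ → A) {X : Set L} (hX : X.Infinite)
    (h : ∀ x ∈ X, ∑ n ∈ Finset.range M, x ^ n • F n ∈ Y) : ∀ n, n < M → F n ∈ Y := by
  intro n hn
  refine H388.mem_of_homog Y (Finset.range M) (fun n => n) (fun _ _ _ _ h => h) M
    (fun j hj => (Finset.mem_range.1 hj).le) F (a := 1) (b := 0) one_ne_zero
    ((fun x : L => x - 1) '' X) (hX.image fun _ _ _ _ h => sub_left_injective h)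
    (fun x _ => by simp) ?_ n (Finset.mem_range.2 hn)
  rintro _ ⟨x, hx, rfl⟩
  have h1 : ∀ j, ((1 + (x - 1) * 1) ^ j * (1 + (x - 1) * 0) ^ (M - j)) • F j = x ^ j • F j := by
    intro j
    congr 1
    ring
  simp only [h1]
  exact h x hx

/-- extraction for a family -/
theorem FChain.mem_of_val {T : ℕ → Fin 3 → End L V} {M n0 : ℕ}
    (h : FChain q S W I Ui Uj Ii T M n0) (WW : Submodule L (Fin 3 → End L V)) {X : Set L}
    (hX : X.Infinite) (hWW : ∀ x ∈ X, FChain.val T M x ∈ WW) (n : ℕ) : T n ∈ WW := by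
  by_cases hn : n < M + 1
  · refine mem_of_pow WW (M + 1) T hX (fun x hx => ?_) n hn
    have h1 : ∑ n ∈ Finset.range (M + 1), x ^ n • T n = FChain.val T M x := by
      funext a
      rw [Finset.sum_apply]
      rfl
    rw [h1]
    exact hWW x hx
  · rw [h.top n (by omega)]
    exact WW.zero_mem

/-- **OFF, abstract form** -/
theorem Setup.off (h : Setup q S W I Ui Uj Ii Ij p N)
    (hmin : ∀ Y : Submodule L V, (∀ a, ∀ v ∈ Y, S a v ∈ Y) →
      (∀ s, ∀ u ∈ Ui, (S s ^ p s) u ∈ Y) → Ii ≤ Y)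
    (WW : Submodule L (Fin 3 → End L V)) {X : Set L} (hX : X.Infinite)
    (hWW : ∀ x ∈ X, ∀ T : Fin 3 → End L V, (∀ a v, T a v ∈ Ui) →
      (∀ a, ∀ v ∈ perp q Uj, T a v = 0) → (∑ a, (x • (S a * T a) - T a * S a) = 0) →
      (∀ a, ∀ w ∈ W, x • S a (T a w) - T a (S a w) ∈ I) → T ∈ WW) :
    (∀ s, ∀ a' ∈ Ui, ∀ b' ∈ Uj, ∀ k < p s,
      (Pi.single s (rk q ((S s ^ k) a') ((S s ^ (p s - 1 - k)) b')) : Fin 3 → End L V) ∈ WW) ∧
    ∀ e ∈ Ii, ∀ z ∈ Uj, ∀ d, (Pi.single d (rk q e z) : Fin 3 → End L V) ∈ WW := by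
  have hv : ∀ {T : ℕ → Fin 3 → End L V} {M n0 : ℕ}, FChain q S W I Ui Uj Ii T M n0 →
      ∀ n, T n ∈ WW := fun {T M n0} hT n => hT.mem_of_val WW hX (fun x hx =>
    hWW x hx _ (fun a v => hT.val_range x a v) (fun a v hv => hT.val_kill x a hv)
      (hT.val_rel x) fun a w hw => hT.val_comm x a hw) n
  refine ⟨fun s a' ha b' hb k hk => ?_, fun e he z hz d => ?_⟩
  · obtain ⟨T, M, n0, n, hT, hn⟩ := h.exists_main s ha hb hk
    rw [← hn]
    exact hv hT n
  · let f : V →ₗ[L] (Fin 3 → End L V) := LinearMap.single L (fun _ => End L V) d ∘ₗ rkL q z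
    have h1 : Ii ≤ WW.comap f := h.le_of_tail hmin fun e he => by
      obtain ⟨T, M, n0, n, hT, _, hn⟩ := he d z hz
      show (Pi.single d (rk q e z) : Fin 3 → End L V) ∈ WW
      rw [← hn]
      exact hv hT n
    exact h1 he

end Vale.Agent.P182.H120
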