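import Vale.Agent.P182.H120.FBlk
import Vale.Agent.P182.H922.RowS

/-!
# Infinitely many good bases between two blocks, and (OFF) without exactness
-/

namespace Vale.Agent.P182.H120

open Module Vale.Agent.P182.H533 Vale.Agent.P182.B1 Vale.Agent.P182.H922
  Vale.Agent.P182.H578 Vale.Agent.P182.H588 Vale.Agent.P182.H181 Vale.Agent.P182.H983
  Vale.Agent.P182.H922.S2

universe u v w

section lines

variable {L : Type*} [Field L]

/-- a finite set of lines through the origin meets the line `x + y b = 1` in finitely many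
points `x + y a = ρ` -/
theorem finite_bad {F : Set (L × L)} (hF : F.Finite) (hF0 : ∀ b ∈ F, b ≠ 0) {a b : L}
    (hab : a ≠ b) : {ρ : L | ∃ x y : L, x + y * a = ρ ∧ x + y * b = 1 ∧
      ∃ c ∈ F, c.1 * x + c.2 * y = 0}.Finite := by
  have hab' : a - b ≠ 0 := sub_ne_zero.2 hab
  have h1 : {ρ : L | ∃ x y : L, x + y * a = ρ ∧ x + y * b = 1 ∧
      ∃ c ∈ F, c.1 * x + c.2 * y = 0} ⊆ ⋃ c ∈ F, {ρ : L | ∃ x y : L, x + y * a = ρ ∧
        x + y * b = 1 ∧ c.1 * x + c.2 * y = 0} := by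
    rintro ρ ⟨x, y, h1, h2, c, hc, h3⟩
    exact Set.mem_biUnion hc ⟨x, y, h1, h2, h3⟩
  refine (hF.biUnion fun c hc => ?_).subset h1
  refine Set.Subsingleton.finite ?_
  rintro _ ⟨x, y, rfl, h2, h3⟩ _ ⟨x', y', rfl, h2', h3'⟩
  -- the determinant
  by_cases hdet : c.2 - b * c.1 = 0
  · exfalso
    have h4 : c.1 = 0 := by linear_combination h3 - y * hdet - c.1 * h2
    have h5 : c.2 = 0 := by linear_combination hdet + b * h4
    exact hF0 c hc (Prod.ext h4 h5)
  · have h6 : (c.2 - b * c.1) * (y - y') = 0 := by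
      linear_combination h3 - h3' - c.1 * (h2 - h2')
    have h7 : y = y' := by
      rcases mul_eq_zero.1 h6 with h | h
      · exact absurd h hdet
      · exact sub_eq_zero.1 h
    subst h7
    linear_combination h2 - h2'

/-- the complement is infinite, and every `ρ` has its base point -/
theorem infinite_good [Infinite L] {F : Set (L × L)} (hF : F.Finite) (hF0 : ∀ b ∈ F, b ≠ 0)
    {a b : L} (hab : a ≠ b) : {ρ : L | ρ ≠ 0 ∧ ∃ x y : L, x + y * a = ρ ∧ x + y * b = 1 ∧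
      ∀ c ∈ F, c.1 * x + c.2 * y ≠ 0}.Infinite := by
  have hab' : a - b ≠ 0 := sub_ne_zero.2 hab
  intro hfin
  have h1 := (finite_bad hF hF0 hab).union (hfin.union (Set.finite_singleton (0 : L)))
  refine Set.infinite_univ (h1.subset fun ρ _ => ?_)
  by_cases hρ : ρ = 0
  · exact Or.inr (Or.inr hρ)
  set y : L := (ρ - 1) / (a - b) with hy
  have hy' : y * (a - b) = ρ - 1 := div_mul_cancel₀ _ hab'
  have e1 : (1 - y * b) + y * a = ρ := by linear_combination hy'
  have e2 : (1 - y * b) + y * b = 1 := by ring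
  by_cases hc : ∃ c ∈ F, c.1 * (1 - y * b) + c.2 * y = 0
  · exact Or.inl ⟨_, y, e1, e2, hc⟩
  · push Not at hc
    exact Or.inr (Or.inl ⟨hρ, _, y, e1, e2, hc⟩)

end lines

section blk

variable {L : Type u} {V : Type v} {J : Type w} [Field L] [AddCommGroup V] [Module L V]
  [Fintype J] [DecidableEq J] {𝒟 : Cfg L V J} {u : J → L} {t t' : J → V} {W I : Submodule L V}
  {n : ℕ} {U : Fin n → Submodule L V} {d : Fin n → L} {p : Fin 3 → ℕ}

theorem infinite_goodR [Infinite L] {F : Set (L × L)} (hF : F.Finite) (hF0 : ∀ b ∈ F, b ≠ 0)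
    (h : ∀ x y : L, (∀ b ∈ F, b.1 * x + b.2 * y ≠ 0) → RowS 𝒟 u t t' W I x y) {i j : Fin n}
    (hij : d i ≠ d j) : (GoodR 𝒟 u t t' W I d i j).Infinite := by
  refine (infinite_good hF hF0 hij).mono ?_
  rintro ρ ⟨-, x, y, h1, h2, h3⟩
  exact ⟨x, y, h1, h2, h x y h3⟩

variable [FiniteDimensional L V]

/-- **(OFF) without the exactness**, from the context -/
theorem off_WF [CharZero L] (hC : Ctx 𝒟 u) (hM : MaxCoreU 𝒟 u t)
    (B : Blk 𝒟 u t t' W I U d p) {i j : Fin n} (hij : d i ≠ d j) (a : Fin 3) :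
    (∀ T ∈ Ten 𝒟.q (U i ⊓ I) (U j), fam 𝒟 t (Pi.single a T) ∈ WF 𝒟 t W I u) ∧
    ∀ T ∈ Ten 𝒟.q (U j) (U i ⊓ I), fam 𝒟 t (Pi.single a T) ∈ WF 𝒟 t W I u := by
  obtain ⟨F, hF, hF0, h⟩ := exists_rowS two_ne_zero B hC hM
  exact off_tail hC B (infinite_goodR hF hF0 (fun x y hxy => (h x y hxy).2.2) hij) a

end blk

end Vale.Agent.P182.H120
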