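import Vale.Agent.P182.H55.NullA

/-!
# The radical is generated by the images of the powers `S_s ^ p_s`

`π : U → V₁` is a surjection which intertwines `S` and `T`; `T` is of null type on `V₁`; the words
in `S` act nilpotently on `ker π` and `U = ∑ S_s U`.  Then every `S`-stable subspace which contains
the images of all `S_s ^ p_s` contains `ker π`.
-/

namespace Vale.Agent.P182.H120

open Module Vale.Agent.P182.H533

section coc

variable {L V : Type*} [Field L] [AddCommGroup V] [Module L V] [FiniteDimensional L V]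

/-- cocycles with values in the trivial module are coboundaries -/
theorem coc (T : Fin 3 → End L V) (hsum : ∑ s, T s = 0)
    (htop : ⨆ s, LinearMap.range (T s) = ⊤) (hsoc : ∀ v, (∀ s, T s v = 0) → v = 0)
    (htot : ∑ s, finrank L (LinearMap.ker (T s)) = finrank L V) (ψ : Fin 3 → (V →ₗ[L] L))
    (h : ∑ s, ψ s ∘ₗ T s = 0) : ∃ ψ0 : (V →ₗ[L] L), ∀ s, ψ s ∘ₗ T s = ψ0 ∘ₗ T s := by
  -- the map `ψ ↦ ∑ ψ_s T_s`
  let Ψ : (Fin 3 → (V →ₗ[L] L)) →ₗ[L] (V →ₗ[L] L) :=
    ∑ s, (T s).dualMap ∘ₗ LinearMap.proj s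
  have hΨ : ∀ ψ, Ψ ψ = ∑ s, ψ s ∘ₗ T s := fun ψ => by
    simp only [Ψ, LinearMap.sum_apply, LinearMap.comp_apply, LinearMap.proj_apply,
      LinearMap.dualMap_apply']
  obtain ⟨K, hK, hker⟩ : ∃ K : Fin 3 → Submodule L (V →ₗ[L] L), (∀ s φ, φ ∈ K s → φ ∘ₗ T s = 0) ∧
      ∀ s, finrank L (K s) = finrank L (LinearMap.ker (T s)) := by
    refine ⟨fun s => LinearMap.ker (T s).dualMap, fun s φ hφ => hφ, ?_⟩
    intro s
    have h1 := LinearMap.finrank_range_add_finrank_ker (T s).dualMap
    have h2 := LinearMap.finrank_range_add_finrank_ker (T s)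
    rw [LinearMap.finrank_range_dualMap_eq_finrank_range, Subspace.dual_finrank_eq] at h1
    have h3 : finrank L (LinearMap.ker (T s).dualMap) = finrank L (LinearMap.ker (T s)) := by
      omega
    exact h3
  have hfree : ∀ i, Module.Free L (K i) := fun i => Module.Free.of_divisionRing L (K i)
  -- `Ψ` is surjective
  have hsurj : LinearMap.range Ψ = ⊤ := by
    have h1 : (⨆ s, LinearMap.range (T s).dualMap) ≤ LinearMap.range Ψ := by
      refine iSup_le fun s => ?_
      rintro _ ⟨φ, rfl⟩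
      refine ⟨Pi.single s φ, ?_⟩
      rw [hΨ, Finset.sum_eq_single s]
      · rw [Pi.single_eq_same]; rfl
      · intro b _ hb
        rw [Pi.single_eq_of_ne hb, LinearMap.zero_comp]
      · intro hs; exact absurd (Finset.mem_univ s) hs
    rw [eq_top_iff]
    refine le_trans ?_ h1
    have h2 : (⨆ s, LinearMap.range (T s).dualMap) =
        (⨅ s, LinearMap.ker (T s)).dualAnnihilator := by
      rw [Subspace.dualAnnihilator_iInf_eq]
      exact iSup_congr fun s => LinearMap.range_dualMap_eq_dualAnnihilator_ker _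
    have h3 : (⨅ s, LinearMap.ker (T s)) = ⊥ := by
      rw [eq_bot_iff]
      intro v hv
      rw [Submodule.mem_iInf] at hv
      exact (Submodule.mem_bot L).2 (hsoc v fun s => LinearMap.mem_ker.1 (hv s))
    rw [h2, h3, Submodule.dualAnnihilator_bot]
  have hkΨ : finrank L (LinearMap.ker Ψ) = 2 * finrank L V := by
    have h1 := LinearMap.finrank_range_add_finrank_ker Ψ
    rw [hsurj, finrank_top, Subspace.dual_finrank_eq, Module.finrank_pi_fintype] at h1
    simp only [Subspace.dual_finrank_eq, Finset.sum_const, Finset.card_univ, Fintype.card_fin,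
      smul_eq_mul] at h1
    omega
  -- the trivial solutions
  let Δ : ((V →ₗ[L] L) × (∀ s, K s)) →ₗ[L] LinearMap.ker Ψ :=
    LinearMap.codRestrict _ (LinearMap.pi fun s =>
      LinearMap.fst L _ _ + (K s).subtype ∘ₗ LinearMap.proj s ∘ₗ LinearMap.snd L _ _) (by
      rintro ⟨φ, κ⟩
      rw [LinearMap.mem_ker, hΨ]
      have h1 : ∀ s, (φ + (κ s : V →ₗ[L] L)) ∘ₗ T s = φ ∘ₗ T s := by
        intro s
        rw [LinearMap.add_comp, hK s _ (κ s).2, add_zero]
      calc ∑ s, (φ + (κ s : V →ₗ[L] L)) ∘ₗ T s = ∑ s, φ ∘ₗ T s :=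
            Finset.sum_congr rfl fun s _ => h1 s
        _ = φ ∘ₗ ∑ s, T s := by
            ext v
            simp [LinearMap.sum_apply]
        _ = 0 := by rw [hsum, LinearMap.comp_zero])
  have hΔ : ∀ x s, (Δ x : Fin 3 → (V →ₗ[L] L)) s = x.1 + (x.2 s : V →ₗ[L] L) := fun x s => rfl
  have hinj : Function.Injective Δ := by
    rw [injective_iff_map_eq_zero]
    rintro ⟨φ, κ⟩ hx
    have h1 : ∀ s, φ + (κ s : V →ₗ[L] L) = 0 := fun s => by
      rw [← hΔ (φ, κ) s, hx]; rfl
    have h2 : φ = 0 := by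
      ext v
      have h3 : v ∈ ⨆ s, LinearMap.range (T s) := by rw [htop]; trivial
      refine Submodule.iSup_induction (fun s => LinearMap.range (T s))
        (motive := fun v => φ v = (0 : V →ₗ[L] L) v) h3 ?_ ?_ ?_
      · rintro s _ ⟨w, rfl⟩
        have h4 := hK s _ (κ s).2
        have h5 := LinearMap.congr_fun (h1 s) (T s w)
        have h6 := LinearMap.congr_fun h4 w
        simp only [LinearMap.add_apply, LinearMap.comp_apply, LinearMap.zero_apply] at h5 h6 ⊢
        rwa [h6, add_zero] at h5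
      · simp
      · intro x y hx hy
        simp only [map_add, hx, hy, LinearMap.zero_apply]
    subst h2
    refine Prod.ext rfl (funext fun s => Subtype.ext ?_)
    have := h1 s
    rwa [zero_add] at this
  have hfin : finrank L ((V →ₗ[L] L) × (∀ s, K s)) = finrank L (LinearMap.ker Ψ) := by
    rw [hkΨ, Module.finrank_prod, Module.finrank_pi_fintype, Subspace.dual_finrank_eq,
      Finset.sum_congr rfl fun s _ => hker s, htot]
    omega
  have hsur : Function.Surjective Δ := by
    have hfd : FiniteDimensional L (LinearMap.ker Ψ) := FiniteDimensional.finiteDimensional_submodule _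
    have h1 : finrank L (LinearMap.range Δ) = finrank L (LinearMap.ker Ψ) := by
      rw [LinearMap.finrank_range_of_inj hinj]
      exact hfin
    exact LinearMap.range_eq_top.1 (@Submodule.eq_top_of_finrank_eq L (LinearMap.ker Ψ) _ _ _ hfd
      (LinearMap.range Δ) h1)
  obtain ⟨⟨φ, κ⟩, hx⟩ := hsur ⟨ψ, by rw [LinearMap.mem_ker, hΨ]; exact h⟩
  refine ⟨φ, fun s => ?_⟩
  have h1 : ψ s = φ + (κ s : V →ₗ[L] L) := by
    rw [← hΔ (φ, κ) s, hx]
  rw [h1, LinearMap.add_comp, hK s _ (κ s).2, add_zero]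

end coc

section ann

variable {L V : Type*} [Field L] [AddCommGroup V] [Module L V]

/-- the vectors killed by all words of length `n` -/
def ann (S : Fin 3 → End L V) : ℕ → Submodule L V
  | 0 => ⊥
  | n + 1 => ⨅ s, (ann S n).comap (S s)

theorem mem_ann_succ {S : Fin 3 → End L V} {n : ℕ} {v : V} :
    v ∈ ann S (n + 1) ↔ ∀ s, S s v ∈ ann S n := by
  rw [ann, Submodule.mem_iInf]
  exact Iff.rfl

theorem ann_stable {S : Fin 3 → End L V} {n : ℕ} {v : V} (hv : v ∈ ann S n) (s : Fin 3) :
    S s v ∈ ann S n := by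
  induction n generalizing v s with
  | zero =>
    rw [ann, Submodule.mem_bot] at hv
    rw [hv, map_zero]
    exact Submodule.zero_mem _
  | succ n ih =>
    rw [mem_ann_succ] at hv ⊢
    exact fun s' => ih (hv s) s'

theorem ann_mono {S : Fin 3 → End L V} {n : ℕ} : ann S n ≤ ann S (n + 1) := fun _ hv =>
  mem_ann_succ.2 fun s => ann_stable hv s

/-- the words of length `n` kill the orthogonal complement of their image -/
theorem mem_ann_of_perp {q : V →ₗ[L] V →ₗ[L] L} (hq : IsForm q) {S : Fin 3 → End L V}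
    (hS : ∀ s, IsSA q (S s)) {n : ℕ} {v : V} (hv : v ∈ perp q (words S n)) : v ∈ ann S n := by
  induction n generalizing v with
  | zero =>
    rw [ann, Submodule.mem_bot]
    exact hq.nondeg v fun w => hv w trivial
  | succ n ih =>
    rw [mem_ann_succ]
    intro s
    refine ih fun w hw => ?_
    rw [hS s]
    exact hv _ (Submodule.mem_iSup_of_mem s (Submodule.mem_map_of_mem hw))

/-- Nakayama -/
theorem nakayama {S : Fin 3 → End L V} {K X : Submodule L V} {n : ℕ} (hn : K ≤ ann S n)
    (hX : ∀ s, ∀ v ∈ X, S s v ∈ X) (h : K ≤ X ⊔ ⨆ s, K.map (S s)) : K ≤ X := by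
  have key : ∀ m ≤ n, K ≤ X ⊔ ann S (n - m) := by
    intro m
    induction m with
    | zero =>
      intro _
      rw [Nat.sub_zero]
      exact hn.trans le_sup_right
    | succ m ih =>
      intro hm
      have h1 := ih (by omega)
      have h2 : ⨆ s, K.map (S s) ≤ X ⊔ ann S (n - (m + 1)) := by
        refine iSup_le fun s => ?_
        rintro _ ⟨k, hk, rfl⟩
        obtain ⟨x, hx, y, hy, hxy⟩ := Submodule.mem_sup.1 (h1 hk)
        rw [← hxy, map_add]
        refine Submodule.add_mem_sup (hX s x hx) ?_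
        rw [show n - m = (n - (m + 1)) + 1 by omega] at hy
        exact mem_ann_succ.1 hy s
      exact h.trans (sup_le le_sup_left h2)
  have h1 := key n le_rfl
  rw [Nat.sub_self, ann, sup_bot_eq] at h1
  exact h1

end ann

section gen

variable {L U V : Type*} [Field L] [AddCommGroup U] [Module L U]
  [AddCommGroup V] [Module L V] [FiniteDimensional L V]

/-- the kernel of a power -/
theorem ker_le_range_pow {T : End L V} {p : ℕ} (hp : T ^ p = 0)
    (hrk : finrank L V = p * finrank L (LinearMap.ker T)) (h0 : 0 < p) :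
    LinearMap.ker T ≤ LinearMap.range (T ^ (p - 1)) := by
  have h1 : LinearMap.range (T ^ (p - 1)) ≤ LinearMap.ker T := by
    rintro _ ⟨x, rfl⟩
    rw [LinearMap.mem_ker, ← Module.End.mul_apply, ← pow_succ', Nat.sub_add_cancel h0, hp,
      LinearMap.zero_apply]
  have h2 := H55.finrank_range_pow T hp rfl hrk (b := p - 1) (Nat.sub_le _ _)
  rw [show p - (p - 1) = 1 by omega, one_mul] at h2
  exact (Submodule.eq_of_le_of_finrank_eq h1 h2).ge

/-- **The kernel of `π` is generated by the images of the powers `S_s ^ p_s`.** -/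
theorem gen_ker (π : U →ₗ[L] V) (hπ : Function.Surjective π) (S : Fin 3 → End L U)
    (T : Fin 3 → End L V) (hT : ∀ s u, π (S s u) = T s (π u)) (hsum : ∑ s, S s = 0)
    (htop : ⨆ s, LinearMap.range (S s) = ⊤) (hsoc : ∀ v, (∀ s, T s v = 0) → v = 0)
    (p : Fin 3 → ℕ) (hp : ∀ s, T s ^ p s = 0)
    (hrk : ∀ s, finrank L V = p s * finrank L (LinearMap.ker (T s)))
    (htot : ∑ s, finrank L (LinearMap.ker (T s)) = finrank L V) {N : ℕ}
    (hnil : LinearMap.ker π ≤ ann S N) (X : Submodule L U) (hX : ∀ s, ∀ v ∈ X, S s v ∈ X)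
    (hXp : ∀ s v, (S s ^ p s) v ∈ X) : LinearMap.ker π ≤ X := by
  refine nakayama hnil hX fun k hk => ?_
  by_contra hkn
  obtain ⟨f, hfk, hf⟩ := Submodule.exists_le_ker_of_notMem hkn
  obtain ⟨σ, hσ⟩ := LinearMap.exists_rightInverse_of_surjective π (LinearMap.range_eq_top.2 hπ)
  have hσ' : ∀ v, π (σ v) = v := fun v => LinearMap.congr_fun hσ v
  have hfX : ∀ x ∈ X, f x = 0 := fun x hx => hf (Submodule.mem_sup_left hx)
  have hfK : ∀ s, ∀ x, π x = 0 → f (S s x) = 0 := fun s x hx =>
    hf (Submodule.mem_sup_right (Submodule.mem_iSup_of_mem s (Submodule.mem_map_of_mem hx)))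
  have hγ : ∀ s u, f (S s (σ (π u))) = f (S s u) := by
    intro s u
    have h1 := hfK s (σ (π u) - u) (by rw [map_sub, hσ', sub_self])
    rwa [map_sub, map_sub, sub_eq_zero] at h1
  -- powers
  have hpow : ∀ s m u, π ((S s ^ m) u) = (T s ^ m) (π u) := by
    intro s m
    induction m with
    | zero => intro u; simp
    | succ m ih =>
      intro u
      rw [pow_succ', pow_succ', Module.End.mul_apply, Module.End.mul_apply, hT, ih]
  have hψ : ∀ s, ∃ ψ : V →ₗ[L] L, f ∘ₗ S s ∘ₗ σ = ψ ∘ₗ T s := by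
    intro s
    have h1 : f ∘ₗ S s ∘ₗ σ ∈ (LinearMap.ker (T s)).dualAnnihilator := by
      rw [Submodule.mem_dualAnnihilator]
      intro v hv
      rcases Nat.eq_zero_or_pos (p s) with h0 | h0
      · have h2 := hrk s
        rw [h0, zero_mul] at h2
        have := Module.finrank_zero_iff.1 h2
        rw [Subsingleton.elim v 0, map_zero]
      · obtain ⟨w, rfl⟩ := ker_le_range_pow (hp s) (hrk s) h0 hv
        obtain ⟨u, rfl⟩ := hπ w
        rw [← hpow]
        show f (S s (σ (π _))) = 0
        rw [hγ, ← Module.End.mul_apply, ← pow_succ', Nat.sub_add_cancel h0]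
        exact hfX _ (hXp s u)
    rw [← LinearMap.range_dualMap_eq_dualAnnihilator_ker] at h1
    obtain ⟨ψ, hψ⟩ := h1
    exact ⟨ψ, hψ.symm⟩
  choose ψ hψ using hψ
  have hTsum : ∑ s, T s = 0 := by
    ext v
    obtain ⟨u, rfl⟩ := hπ v
    rw [LinearMap.sum_apply, Finset.sum_congr rfl fun s _ => (hT s u).symm, ← map_sum,
      ← LinearMap.sum_apply, hsum]
    simp
  have hTtop : ⨆ s, LinearMap.range (T s) = ⊤ := by
    rw [eq_top_iff]
    rintro v -
    obtain ⟨u, rfl⟩ := hπ v
    have h1 : u ∈ ⨆ s, LinearMap.range (S s) := by rw [htop]; trivial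
    refine Submodule.iSup_induction (fun s => LinearMap.range (S s))
      (motive := fun u => π u ∈ ⨆ s, LinearMap.range (T s)) h1 ?_ ?_ ?_
    · rintro s _ ⟨w, rfl⟩
      rw [hT]
      exact Submodule.mem_iSup_of_mem s ⟨_, rfl⟩
    · rw [map_zero]; exact Submodule.zero_mem _
    · intro x y hx hy
      rw [map_add]; exact Submodule.add_mem _ hx hy
  obtain ⟨ψ0, hψ0⟩ := coc T hTsum hTtop hsoc htot ψ (by
    rw [Finset.sum_congr rfl fun s _ => (hψ s).symm]
    ext v
    have h1 : ∑ s, S s (σ v) = 0 := by rw [← LinearMap.sum_apply, hsum, LinearMap.zero_apply]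
    rw [LinearMap.sum_apply]
    simp only [LinearMap.comp_apply, LinearMap.zero_apply]
    rw [← map_sum, h1, map_zero])
  apply hfk
  have h1 : ∀ u, f u = ψ0 (π u) := by
    intro u
    have h1 : u ∈ ⨆ s, LinearMap.range (S s) := by rw [htop]; trivial
    refine Submodule.iSup_induction (fun s => LinearMap.range (S s))
      (motive := fun u => f u = ψ0 (π u)) h1 ?_ ?_ ?_
    · rintro s _ ⟨w, rfl⟩
      have h2 := LinearMap.congr_fun (hψ s) (π w)
      have h3 := LinearMap.congr_fun (hψ0 s) (π w)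
      simp only [LinearMap.comp_apply] at h2 h3
      rw [← hγ, h2, h3, hT]
    · simp
    · intro x y hx hy
      rw [map_add, map_add, map_add, hx, hy]
  rw [h1, LinearMap.mem_ker.1 hk, map_zero]

end gen

section core

variable {L V : Type*} [Field L] [AddCommGroup V] [Module L V] [FiniteDimensional L V]
  {q : V →ₗ[L] V →ₗ[L] L} {S : Fin 3 → End L V}

theorem S1_soc (hq : IsForm q) (hS : ∀ s, IsSA q (S s)) (C : Core q S) (v : C.V1)
    (hv : ∀ s, C.S1 hq s v = 0) : v = 0 := by
  refine (C.isForm hq).nondeg v fun w => ?_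
  have h1 : w ∈ ⨆ s, LinearMap.range (C.S1 hq s) := by rw [C.S1_span hq hS]; trivial
  refine Submodule.iSup_induction (fun s => LinearMap.range (C.S1 hq s))
    (motive := fun w => C.q1 v w = 0) h1 ?_ ?_ ?_
  · rintro s _ ⟨w, rfl⟩
    rw [← C.S1_SA hq hS s, hv s, map_zero, LinearMap.zero_apply]
  · rw [map_zero]
  · intro x y hx hy
    rw [map_add, hx, hy, add_zero]

omit [FiniteDimensional L V] in
/-- the words of length `C.N` kill the radical -/
theorem I_le_ann (hq : IsForm q) (hS : ∀ s, IsSA q (S s)) (C : Core q S) : C.I ≤ ann S C.N := by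
  intro v hv
  refine mem_ann_of_perp hq hS ?_
  rw [← C.hN]
  exact hv.2

/-- **The radical is generated by the images of `W` under the powers `S_s ^ p_s`.** -/
theorem I_le_of_pow (hq : IsForm q) (hS : ∀ s, IsSA q (S s)) (hsum : ∑ s, S s = 0)
    (C : Core q S) (p : Fin 3 → ℕ) (hp : ∀ s, C.S1 hq s ^ p s = 0)
    (hrk : ∀ s, finrank L C.V1 = p s * finrank L (LinearMap.ker (C.S1 hq s)))
    (htot : ∑ s, finrank L (LinearMap.ker (C.S1 hq s)) = finrank L C.V1)
    (X : Submodule L V) (hX : ∀ s, ∀ v ∈ X, S s v ∈ X)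
    (hXp : ∀ s, ∀ w ∈ C.W, (S s ^ p s) w ∈ X) : C.I ≤ X := by
  let R : Fin 3 → End L C.W := fun s => (S s).restrict fun w hw => C.map_W hw
  have hR : ∀ s (w : C.W), (R s w : V) = S s w := fun s w => rfl
  have hRp : ∀ s m (w : C.W), ((R s ^ m) w : V) = (S s ^ m) w := by
    intro s m
    induction m with
    | zero => intro w; simp
    | succ m ih =>
      intro w
      rw [pow_succ', pow_succ', Module.End.mul_apply, Module.End.mul_apply, hR, ih]
  have hann : ∀ n (w : C.W), (w : V) ∈ ann S n → w ∈ ann R n := by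
    intro n
    induction n with
    | zero =>
      intro w hw
      rw [ann, Submodule.mem_bot] at hw ⊢
      exact Subtype.ext hw
    | succ n ih =>
      intro w hw
      rw [mem_ann_succ] at hw ⊢
      exact fun s => ih _ (hw s)
  have hkI : ∀ w : C.W, C.P hq w = 0 → (w : V) ∈ C.I := by
    intro w hw
    have h1 := C.sub_P_mem_I hq w.2
    rwa [hw, Submodule.coe_zero, sub_zero] at h1
  have key := gen_ker (C.P hq ∘ₗ C.W.subtype) (fun v => ⟨⟨v, C.V1_le v.2⟩, C.P_coe hq v⟩) R
    (C.S1 hq) (fun s u => C.P_S hq hS s (C.W_le_perp hq u.2)) (by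
      ext w
      rw [LinearMap.sum_apply, Submodule.coe_sum, LinearMap.zero_apply, Submodule.coe_zero]
      have h1 := LinearMap.congr_fun hsum (w : V)
      rwa [LinearMap.sum_apply] at h1) (by
      rw [eq_top_iff]
      rintro w -
      have h1 : C.W ≤ (⨆ s, LinearMap.range (R s)).map C.W.subtype := by
        conv_lhs => rw [← C.hW]
        refine iSup_le fun s => ?_
        rintro _ ⟨w, hw, rfl⟩
        exact ⟨R s ⟨w, hw⟩, Submodule.mem_iSup_of_mem s ⟨_, rfl⟩, rfl⟩
      obtain ⟨w', hw', he⟩ := h1 w.2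
      rwa [← Subtype.ext (a1 := w') (a2 := w) he])
    (S1_soc hq hS C) p hp hrk htot (N := C.N) (fun w hw => hann _ _ (I_le_ann hq hS C
      (hkI w (LinearMap.mem_ker.1 hw)))) (X.comap C.W.subtype) (fun s w hw => hX s _ hw)
      (fun s w => by
        show ((R s ^ p s) w : V) ∈ X
        rw [hRp]
        exact hXp s w w.2)
  intro v hv
  exact key (x := ⟨v, hv.1⟩) (LinearMap.mem_ker.2 (C.P_eq_zero hq hv.2))

end core

end Vale.Agent.P182.H120
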